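import Vale.Agent.Lib.P252.GenN.Growth

/-!
The admissible exponents in general dimension: explicit certificates.
-/

namespace Vale.Agent.Lib.P252

namespace CaccioN

theorem adm_z_3_3 : AdmN 3 3 (0) :=
  ⟨by norm_num, (-33/200 : ℝ), (12007/160000 : ℝ), (-35007/400000 : ℝ), (-1363/6000 : ℝ),
    (-1/20 : ℝ), (-1439/3000 : ℝ),
    by refine ⟨?_, ?_, ?_, ?_, ?_⟩ <;> norm_num [dRes, val, cN]⟩

theorem adm_z_3_4 : AdmN 3 4 (0) :=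
  ⟨by norm_num, (-9/50 : ℝ), (2353/28125 : ℝ), (-854/9375 : ℝ), (-88/375 : ℝ),
    (-1/30 : ℝ), (-172/375 : ℝ),
    by refine ⟨?_, ?_, ?_, ?_, ?_⟩ <;> norm_num [dRes, val, cN]⟩

theorem adm_z_3_5 : AdmN 3 5 (0) :=
  ⟨by norm_num, (-19/100 : ℝ), (71591/800000 : ℝ), (-18399/200000 : ℝ), (-479/2000 : ℝ),
    (-1/40 : ℝ), (-89/200 : ℝ),
    by refine ⟨?_, ?_, ?_, ?_, ?_⟩ <;> norm_num [dRes, val, cN]⟩

theorem adm_z_3_6 : AdmN 3 6 (0) :=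
  ⟨by norm_num, (-39/200 : ℝ), (463267/5000000 : ℝ), (-92797/1000000 : ℝ), (-3631/15000 : ℝ),
    (-1/50 : ℝ), (-821/1875 : ℝ),
    by refine ⟨?_, ?_, ?_, ?_, ?_⟩ <;> norm_num [dRes, val, cN]⟩

theorem adm_z_3_7 : AdmN 3 7 (0) :=
  ⟨by norm_num, (-39/200 : ℝ), (134663/1440000 : ℝ), (-22651/240000 : ℝ), (-97/400 : ℝ),
    (-1/60 : ℝ), (-437/1000 : ℝ),
    by refine ⟨?_, ?_, ?_, ?_, ?_⟩ <;> norm_num [dRes, val, cN]⟩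

theorem adm_z_3_8 : AdmN 3 8 (0) :=
  ⟨by norm_num, (-1/5 : ℝ), (471/4900 : ℝ), (-493/5250 : ℝ), (-257/1050 : ℝ),
    (-1/70 : ℝ), (-226/525 : ℝ),
    by refine ⟨?_, ?_, ?_, ?_, ?_⟩ <;> norm_num [dRes, val, cN]⟩

theorem adm_z_3_9 : AdmN 3 9 (0) :=
  ⟨by norm_num, (-1/5 : ℝ), (3093/32000 : ℝ), (-379/4000 : ℝ), (-49/200 : ℝ),
    (-1/80 : ℝ), (-43/100 : ℝ),
    by refine ⟨?_, ?_, ?_, ?_, ?_⟩ <;> norm_num [dRes, val, cN]⟩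

theorem adm_z_3_10 : AdmN 3 10 (0) :=
  ⟨by norm_num, (-1/5 : ℝ), (11797/121500 : ℝ), (-322/3375 : ℝ), (-331/1350 : ℝ),
    (-1/90 : ℝ), (-58/135 : ℝ),
    by refine ⟨?_, ?_, ?_, ?_, ?_⟩ <;> norm_num [dRes, val, cN]⟩

theorem adm_z_3_11 : AdmN 3 11 (0) :=
  ⟨by norm_num, (-1/5 : ℝ), (4873/50000 : ℝ), (-1439/15000 : ℝ), (-92/375 : ℝ),
    (-1/100 : ℝ), (-161/375 : ℝ),
    by refine ⟨?_, ?_, ?_, ?_, ?_⟩ <;> norm_num [dRes, val, cN]⟩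

theorem adm_z_3_12 : AdmN 3 12 (0) :=
  ⟨by norm_num, (-1/5 : ℝ), (1183/12100 : ℝ), (-53/550 : ℝ), (-27/110 : ℝ),
    (-1/110 : ℝ), (-118/275 : ℝ),
    by refine ⟨?_, ?_, ?_, ?_, ?_⟩ <;> norm_num [dRes, val, cN]⟩

theorem adm_z_3_13 : AdmN 3 13 (0) :=
  ⟨by norm_num, (-39/200 : ℝ), (110803/1152000 : ℝ), (-236003/2400000 : ℝ), (-2923/12000 : ℝ),
    (-1/120 : ℝ), (-2609/6000 : ℝ),
    by refine ⟨?_, ?_, ?_, ?_, ?_⟩ <;> norm_num [dRes, val, cN]⟩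

theorem adm_z_3_14 : AdmN 3 14 (0) :=
  ⟨by norm_num, (-19/100 : ℝ), (798827/8450000 : ℝ), (-65151/650000 : ℝ), (-1571/6500 : ℝ),
    (-1/130 : ℝ), (-716/1625 : ℝ),
    by refine ⟨?_, ?_, ?_, ?_, ?_⟩ <;> norm_num [dRes, val, cN]⟩

theorem adm_z_3_15 : AdmN 3 15 (0) :=
  ⟨by norm_num, (-37/200 : ℝ), (3638939/39200000 : ℝ), (-285791/2800000 : ℝ), (-3357/14000 : ℝ),
    (-1/140 : ℝ), (-25/56 : ℝ),
    by refine ⟨?_, ?_, ?_, ?_, ?_⟩ <;> norm_num [dRes, val, cN]⟩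

theorem adm_z_3_16 : AdmN 3 16 (0) :=
  ⟨by norm_num, (-7/40 : ℝ), (481009/5400000 : ℝ), (-37939/360000 : ℝ), (-2123/9000 : ℝ),
    (-1/150 : ℝ), (-1031/2250 : ℝ),
    by refine ⟨?_, ?_, ?_, ?_, ?_⟩ <;> norm_num [dRes, val, cN]⟩

theorem adm_z_3_17 : AdmN 3 17 (0) :=
  ⟨by norm_num, (-17/100 : ℝ), (223299/2560000 : ℝ), (-51409/480000 : ℝ), (-1123/4800 : ℝ),
    (-1/160 : ℝ), (-5569/12000 : ℝ),
    by refine ⟨?_, ?_, ?_, ?_, ?_⟩ <;> norm_num [dRes, val, cN]⟩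

theorem adm_z_3_18 : AdmN 3 18 (0) :=
  ⟨by norm_num, (-33/200 : ℝ), (986359/11560000 : ℝ), (-369837/3400000 : ℝ), (-11833/51000 : ℝ),
    (-1/170 : ℝ), (-2996/6375 : ℝ),
    by refine ⟨?_, ?_, ?_, ?_, ?_⟩ <;> norm_num [dRes, val, cN]⟩

theorem adm_z_3_19 : AdmN 3 19 (0) :=
  ⟨by norm_num, (-4/25 : ℝ), (1012999/12150000 : ℝ), (-74527/675000 : ℝ), (-1553/6750 : ℝ),
    (-1/180 : ℝ), (-1606/3375 : ℝ),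
    by refine ⟨?_, ?_, ?_, ?_, ?_⟩ <;> norm_num [dRes, val, cN]⟩

theorem adm_z_3_20 : AdmN 3 20 (0) :=
  ⟨by norm_num, (-4/25 : ℝ), (376859/4512500 : ℝ), (-6564/59375 : ℝ), (-1093/4750 : ℝ),
    (-1/190 : ℝ), (-226/475 : ℝ),
    by refine ⟨?_, ?_, ?_, ?_, ?_⟩ <;> norm_num [dRes, val, cN]⟩

theorem adm_z_4_3 : AdmN 4 3 (0) :=
  ⟨by norm_num, (-9/40 : ℝ), (18547/230400 : ℝ), (-6421/115200 : ℝ), (-59/320 : ℝ),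
    (-1/24 : ℝ), (-119/320 : ℝ),
    by refine ⟨?_, ?_, ?_, ?_, ?_⟩ <;> norm_num [dRes, val, cN]⟩

theorem adm_z_4_4 : AdmN 4 4 (0) :=
  ⟨by norm_num, (-6/25 : ℝ), (3577/40500 : ℝ), (-1903/33750 : ℝ), (-341/1800 : ℝ),
    (-1/36 : ℝ), (-211/600 : ℝ),
    by refine ⟨?_, ?_, ?_, ?_, ?_⟩ <;> norm_num [dRes, val, cN]⟩

theorem adm_z_4_5 : AdmN 4 5 (0) :=
  ⟨by norm_num, (-1/4 : ℝ), (287/3072 : ℝ), (-43/768 : ℝ), (-37/192 : ℝ),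
    (-1/48 : ℝ), (-65/192 : ℝ),
    by refine ⟨?_, ?_, ?_, ?_, ?_⟩ <;> norm_num [dRes, val, cN]⟩

theorem adm_z_4_6 : AdmN 4 6 (0) :=
  ⟨by norm_num, (-51/200 : ℝ), (54169/562500 : ℝ), (-403051/7200000 : ℝ), (-2333/12000 : ℝ),
    (-1/60 : ℝ), (-1327/4000 : ℝ),
    by refine ⟨?_, ?_, ?_, ?_, ?_⟩ <;> norm_num [dRes, val, cN]⟩

theorem adm_z_4_7 : AdmN 4 7 (0) :=
  ⟨by norm_num, (-51/200 : ℝ), (5052479/51840000 : ℝ), (-491141/8640000 : ℝ), (-2803/14400 : ℝ),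
    (-1/72 : ℝ), (-1589/4800 : ℝ),
    by refine ⟨?_, ?_, ?_, ?_, ?_⟩ <;> norm_num [dRes, val, cN]⟩

theorem adm_z_4_8 : AdmN 4 8 (0) :=
  ⟨by norm_num, (-51/200 : ℝ), (1156847/11760000 : ℝ), (-64359/1120000 : ℝ), (-1091/5600 : ℝ),
    (-1/84 : ℝ), (-1851/5600 : ℝ),
    by refine ⟨?_, ?_, ?_, ?_, ?_⟩ <;> norm_num [dRes, val, cN]⟩

theorem adm_z_4_9 : AdmN 4 9 (0) :=
  ⟨by norm_num, (-6/25 : ℝ), (2747/28800 : ℝ), (-11131/180000 : ℝ), (-229/1200 : ℝ),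
    (-1/96 : ℝ), (-139/400 : ℝ),
    by refine ⟨?_, ?_, ?_, ?_, ?_⟩ <;> norm_num [dRes, val, cN]⟩

theorem adm_z_4_10 : AdmN 4 10 (0) :=
  ⟨by norm_num, (-9/40 : ℝ), (107297/1166400 : ℝ), (-34211/518400 : ℝ), (-269/1440 : ℝ),
    (-1/108 : ℝ), (-35/96 : ℝ),
    by refine ⟨?_, ?_, ?_, ?_, ?_⟩ <;> norm_num [dRes, val, cN]⟩

theorem adm_z_4_11 : AdmN 4 11 (0) :=
  ⟨by norm_num, (-43/200 : ℝ), (4305473/48000000 : ℝ), (-329983/4800000 : ℝ), (-1473/8000 : ℝ),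
    (-1/120 : ℝ), (-9023/24000 : ℝ),
    by refine ⟨?_, ?_, ?_, ?_, ?_⟩ <;> norm_num [dRes, val, cN]⟩

theorem adm_z_4_12 : AdmN 4 12 (0) :=
  ⟨by norm_num, (-41/200 : ℝ), (844023/9680000 : ℝ), (-376957/5280000 : ℝ), (-14369/79200 : ℝ),
    (-1/132 : ℝ), (-3409/8800 : ℝ),
    by refine ⟨?_, ?_, ?_, ?_, ?_⟩ <;> norm_num [dRes, val, cN]⟩

theorem adm_z_4_13 : AdmN 4 13 (0) :=
  ⟨by norm_num, (-39/200 : ℝ), (17518637/207360000 : ℝ), (-1277801/17280000 : ℝ), (-5147/28800 : ℝ),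
    (-1/144 : ℝ), (-3829/9600 : ℝ),
    by refine ⟨?_, ?_, ?_, ?_, ?_⟩ <;> norm_num [dRes, val, cN]⟩

theorem adm_z_4_14 : AdmN 4 14 (0) :=
  ⟨by norm_num, (-19/100 : ℝ), (10553/126750 : ℝ), (-117427/1560000 : ℝ), (-2767/15600 : ℝ),
    (-1/156 : ℝ), (-6311/15600 : ℝ),
    by refine ⟨?_, ?_, ?_, ?_, ?_⟩ <;> norm_num [dRes, val, cN]⟩

theorem adm_z_4_15 : AdmN 4 15 (0) :=
  ⟨by norm_num, (-37/200 : ℝ), (7710029/94080000 : ℝ), (-171501/2240000 : ℝ), (-17743/100800 : ℝ),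
    (-1/168 : ℝ), (-919/2240 : ℝ),
    by refine ⟨?_, ?_, ?_, ?_, ?_⟩ <;> norm_num [dRes, val, cN]⟩

theorem adm_z_4_16 : AdmN 4 16 (0) :=
  ⟨by norm_num, (-7/40 : ℝ), (56753/720000 : ℝ), (-22733/288000 : ℝ), (-3743/21600 : ℝ),
    (-1/180 : ℝ), (-3037/7200 : ℝ),
    by refine ⟨?_, ?_, ?_, ?_, ?_⟩ <;> norm_num [dRes, val, cN]⟩

theorem adm_z_4_17 : AdmN 4 17 (0) :=
  ⟨by norm_num, (-17/100 : ℝ), (2375867/30720000 : ℝ), (-153883/1920000 : ℝ), (-3301/19200 : ℝ),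
    (-1/192 : ℝ), (-8209/19200 : ℝ),
    by refine ⟨?_, ?_, ?_, ?_, ?_⟩ <;> norm_num [dRes, val, cN]⟩

theorem adm_z_4_18 : AdmN 4 18 (0) :=
  ⟨by norm_num, (-33/200 : ℝ), (7885267/104040000 : ℝ), (-1991059/24480000 : ℝ), (-6959/40800 : ℝ),
    (-1/204 : ℝ), (-5893/13600 : ℝ),
    by refine ⟨?_, ?_, ?_, ?_, ?_⟩ <;> norm_num [dRes, val, cN]⟩

theorem adm_z_4_19 : AdmN 4 19 (0) :=
  ⟨by norm_num, (-4/25 : ℝ), (9013/121500 : ℝ), (-11137/135000 : ℝ), (-2741/16200 : ℝ),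
    (-1/216 : ℝ), (-2371/5400 : ℝ),
    by refine ⟨?_, ?_, ?_, ?_, ?_⟩ <;> norm_num [dRes, val, cN]⟩

theorem adm_z_4_20 : AdmN 4 20 (0) :=
  ⟨by norm_num, (-4/25 : ℝ), (201461/2707500 : ℝ), (-11767/142500 : ℝ), (-643/3800 : ℝ),
    (-1/228 : ℝ), (-1001/2280 : ℝ),
    by refine ⟨?_, ?_, ?_, ?_, ?_⟩ <;> norm_num [dRes, val, cN]⟩

theorem adm_z_4_21 : AdmN 4 21 (0) :=
  ⟨by norm_num, (-31/200 : ℝ), (4654269/64000000 : ℝ), (-803587/9600000 : ℝ), (-24169/144000 : ℝ),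
    (-1/240 : ℝ), (-7117/16000 : ℝ),
    by refine ⟨?_, ?_, ?_, ?_, ?_⟩ <;> norm_num [dRes, val, cN]⟩

theorem adm_z_4_22 : AdmN 4 22 (0) :=
  ⟨by norm_num, (-3/20 : ℝ), (56347/793800 : ℝ), (-25649/302400 : ℝ), (-839/5040 : ℝ),
    (-1/252 : ℝ), (-757/1680 : ℝ),
    by refine ⟨?_, ?_, ?_, ?_, ?_⟩ <;> norm_num [dRes, val, cN]⟩

theorem adm_z_4_23 : AdmN 4 23 (0) :=
  ⟨by norm_num, (-29/200 : ℝ), (16074869/232320000 : ℝ), (-907207/10560000 : ℝ), (-8717/52800 : ℝ),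
    (-1/264 : ℝ), (-24097/52800 : ℝ),
    by refine ⟨?_, ?_, ?_, ?_, ?_⟩ <;> norm_num [dRes, val, cN]⟩

theorem adm_z_4_24 : AdmN 4 24 (0) :=
  ⟨by norm_num, (-29/200 : ℝ), (1761139/25392000 : ℝ), (-949037/11040000 : ℝ), (-27341/165600 : ℝ),
    (-1/276 : ℝ), (-8397/18400 : ℝ),
    by refine ⟨?_, ?_, ?_, ?_, ?_⟩ <;> norm_num [dRes, val, cN]⟩

theorem adm_z_4_25 : AdmN 4 25 (0) :=
  ⟨by norm_num, (-7/50 : ℝ), (129611/1920000 : ℝ), (-62663/720000 : ℝ), (-7073/43200 : ℝ),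
    (-1/288 : ℝ), (-1331/2880 : ℝ),
    by refine ⟨?_, ?_, ?_, ?_, ?_⟩ <;> norm_num [dRes, val, cN]⟩

theorem adm_z_4_26 : AdmN 4 26 (0) :=
  ⟨by norm_num, (-27/200 : ℝ), (4920367/75000000 : ℝ), (-352331/4000000 : ℝ), (-3247/20000 : ℝ),
    (-1/300 : ℝ), (-9359/20000 : ℝ),
    by refine ⟨?_, ?_, ?_, ?_, ?_⟩ <;> norm_num [dRes, val, cN]⟩

theorem adm_z_4_27 : AdmN 4 27 (0) :=
  ⟨by norm_num, (-27/200 : ℝ), (63993331/973440000 : ℝ), (-3299389/37440000 : ℝ), (-3377/20800 : ℝ),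
    (-1/312 : ℝ), (-9733/20800 : ℝ),
    by refine ⟨?_, ?_, ?_, ?_, ?_⟩ <;> norm_num [dRes, val, cN]⟩

theorem adm_z_4_28 : AdmN 4 28 (0) :=
  ⟨by norm_num, (-13/100 : ℝ), (3827/60000 : ℝ), (-288863/3240000 : ℝ), (-15647/97200 : ℝ),
    (-1/324 : ℝ), (-15349/32400 : ℝ),
    by refine ⟨?_, ?_, ?_, ?_, ?_⟩ <;> norm_num [dRes, val, cN]⟩

theorem adm_z_4_29 : AdmN 4 29 (0) :=
  ⟨by norm_num, (-13/100 : ℝ), (1202371/18816000 : ℝ), (-299683/3360000 : ℝ), (-1803/11200 : ℝ),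
    (-1/336 : ℝ), (-15917/33600 : ℝ),
    by refine ⟨?_, ?_, ?_, ?_, ?_⟩ <;> norm_num [dRes, val, cN]⟩

theorem adm_z_4_30 : AdmN 4 30 (0) :=
  ⟨by norm_num, (-13/100 : ℝ), (201877/3153750 : ℝ), (-3569/40000 : ℝ), (-16807/104400 : ℝ),
    (-1/348 : ℝ), (-1099/2320 : ℝ),
    by refine ⟨?_, ?_, ?_, ?_, ?_⟩ <;> norm_num [dRes, val, cN]⟩

theorem adm_z_4_31 : AdmN 4 31 (0) :=
  ⟨by norm_num, (-1/8 : ℝ), (42853/691200 : ℝ), (-231/2560 : ℝ), (-1379/8640 : ℝ),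
    (-1/360 : ℝ), (-1381/2880 : ℝ),
    by refine ⟨?_, ?_, ?_, ?_, ?_⟩ <;> norm_num [dRes, val, cN]⟩

theorem adm_z_4_32 : AdmN 4 32 (0) :=
  ⟨by norm_num, (-1/8 : ℝ), (22915/369024 : ℝ), (-2149/23808 : ℝ), (-475/2976 : ℝ),
    (-1/372 : ℝ), (-1427/2976 : ℝ),
    by refine ⟨?_, ?_, ?_, ?_, ?_⟩ <;> norm_num [dRes, val, cN]⟩

theorem adm_z_4_33 : AdmN 4 33 (0) :=
  ⟨by norm_num, (-3/25 : ℝ), (1383163/23040000 : ℝ), (-8213/90000 : ℝ), (-1519/9600 : ℝ),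
    (-1/384 : ℝ), (-1553/3200 : ℝ),
    by refine ⟨?_, ?_, ?_, ?_, ?_⟩ <;> norm_num [dRes, val, cN]⟩

theorem adm_z_4_34 : AdmN 4 34 (0) :=
  ⟨by norm_num, (-3/25 : ℝ), (2357/39204 : ℝ), (-12323/135000 : ℝ), (-3133/19800 : ℝ),
    (-1/396 : ℝ), (-3203/6600 : ℝ),
    by refine ⟨?_, ?_, ?_, ?_, ?_⟩ <;> norm_num [dRes, val, cN]⟩

theorem adm_z_4_35 : AdmN 4 35 (0) :=
  ⟨by norm_num, (-3/25 : ℝ), (260987/4335000 : ℝ), (-7761/85000 : ℝ), (-269/1700 : ℝ),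
    (-1/408 : ℝ), (-33/68 : ℝ),
    by refine ⟨?_, ?_, ?_, ?_, ?_⟩ <;> norm_num [dRes, val, cN]⟩

theorem adm_z_4_36 : AdmN 4 36 (0) :=
  ⟨by norm_num, (-23/200 : ℝ), (5692843/98000000 : ℝ), (-1550293/16800000 : ℝ), (-39527/252000 : ℝ),
    (-1/420 : ℝ), (-13751/28000 : ℝ),
    by refine ⟨?_, ?_, ?_, ?_, ?_⟩ <;> norm_num [dRes, val, cN]⟩

theorem adm_z_4_37 : AdmN 4 37 (0) :=
  ⟨by norm_num, (-23/200 : ℝ), (36183767/622080000 : ℝ), (-1594963/17280000 : ℝ), (-40657/259200 : ℝ),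
    (-1/432 : ℝ), (-42431/86400 : ℝ),
    by refine ⟨?_, ?_, ?_, ?_, ?_⟩ <;> norm_num [dRes, val, cN]⟩

theorem adm_z_4_38 : AdmN 4 38 (0) :=
  ⟨by norm_num, (-23/200 : ℝ), (1195903/20535000 : ℝ), (-1639633/17760000 : ℝ), (-4643/29600 : ℝ),
    (-1/444 : ℝ), (-43609/88800 : ℝ),
    by refine ⟨?_, ?_, ?_, ?_, ?_⟩ <;> norm_num [dRes, val, cN]⟩

theorem adm_z_4_39 : AdmN 4 39 (0) :=
  ⟨by norm_num, (-11/100 : ℝ), (34093/608000 : ℝ), (-425347/4560000 : ℝ), (-21269/136800 : ℝ),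
    (-1/456 : ℝ), (-7553/15200 : ℝ),
    by refine ⟨?_, ?_, ?_, ?_, ?_⟩ <;> norm_num [dRes, val, cN]⟩

theorem adm_z_4_40 : AdmN 4 40 (0) :=
  ⟨by norm_num, (-11/100 : ℝ), (5123293/91260000 : ℝ), (-436627/4680000 : ℝ), (-21829/140400 : ℝ),
    (-1/468 : ℝ), (-4651/9360 : ℝ),
    by refine ⟨?_, ?_, ?_, ?_, ?_⟩ <;> norm_num [dRes, val, cN]⟩

theorem adm_z_4_41 : AdmN 4 41 (0) :=
  ⟨by norm_num, (-11/100 : ℝ), (10790747/192000000 : ℝ), (-447907/4800000 : ℝ), (-7463/48000 : ℝ),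
    (-1/480 : ℝ), (-23851/48000 : ℝ),
    by refine ⟨?_, ?_, ?_, ?_, ?_⟩ <;> norm_num [dRes, val, cN]⟩

theorem adm_z_4_42 : AdmN 4 42 (0) :=
  ⟨by norm_num, (-21/200 : ℝ), (32673361/605160000 : ℝ), (-5564731/59040000 : ℝ), (-15163/98400 : ℝ),
    (-1/492 : ℝ), (-16489/32800 : ℝ),
    by refine ⟨?_, ?_, ?_, ?_, ?_⟩ <;> norm_num [dRes, val, cN]⟩

theorem adm_z_4_43 : AdmN 4 43 (0) :=
  ⟨by norm_num, (-21/200 : ℝ), (137292467/2540160000 : ℝ), (-5701421/60480000 : ℝ), (-2219/14400 : ℝ),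
    (-1/504 : ℝ), (-2413/4800 : ℝ),
    by refine ⟨?_, ?_, ?_, ?_, ?_⟩ <;> norm_num [dRes, val, cN]⟩

theorem adm_z_4_44 : AdmN 4 44 (0) :=
  ⟨by norm_num, (-21/200 : ℝ), (4801801/88752000 : ℝ), (-648679/6880000 : ℝ), (-5301/34400 : ℝ),
    (-1/516 : ℝ), (-17293/34400 : ℝ),
    by refine ⟨?_, ?_, ?_, ?_, ?_⟩ <;> norm_num [dRes, val, cN]⟩

theorem adm_z_4_45 : AdmN 4 45 (0) :=
  ⟨by norm_num, (-21/200 : ℝ), (150978133/2787840000 : ℝ), (-5974801/63360000 : ℝ), (-16273/105600 : ℝ),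
    (-1/528 : ℝ), (-3539/7040 : ℝ),
    by refine ⟨?_, ?_, ?_, ?_, ?_⟩ <;> norm_num [dRes, val, cN]⟩

theorem adm_z_4_46 : AdmN 4 46 (0) :=
  ⟨by norm_num, (-1/10 : ℝ), (7882/151875 : ℝ), (-857/9000 : ℝ), (-1237/8100 : ℝ),
    (-1/540 : ℝ), (-1373/2700 : ℝ),
    by refine ⟨?_, ?_, ?_, ?_, ?_⟩ <;> norm_num [dRes, val, cN]⟩

theorem adm_z_4_47 : AdmN 4 47 (0) :=
  ⟨by norm_num, (-1/10 : ℝ), (131903/2539200 : ℝ), (-5257/55200 : ℝ), (-281/1840 : ℝ),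
    (-1/552 : ℝ), (-2807/5520 : ℝ),
    by refine ⟨?_, ?_, ?_, ?_, ?_⟩ <;> norm_num [dRes, val, cN]⟩

theorem adm_z_4_48 : AdmN 4 48 (0) :=
  ⟨by norm_num, (-1/10 : ℝ), (8614/165675 : ℝ), (-1343/14100 : ℝ), (-323/2115 : ℝ),
    (-1/564 : ℝ), (-239/470 : ℝ),
    by refine ⟨?_, ?_, ?_, ?_, ?_⟩ <;> norm_num [dRes, val, cN]⟩

theorem adm_z_4_49 : AdmN 4 49 (0) :=
  ⟨by norm_num, (-1/10 : ℝ), (5755/110592 : ℝ), (-1829/19200 : ℝ), (-2639/17280 : ℝ),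
    (-1/576 : ℝ), (-2929/5760 : ℝ),
    by refine ⟨?_, ?_, ?_, ?_, ?_⟩ <;> norm_num [dRes, val, cN]⟩

theorem adm_z_4_50 : AdmN 4 50 (0) :=
  ⟨by norm_num, (-1/10 : ℝ), (18757/360150 : ℝ), (-2801/29400 : ℝ), (-449/2940 : ℝ),
    (-1/588 : ℝ), (-299/588 : ℝ),
    by refine ⟨?_, ?_, ?_, ?_, ?_⟩ <;> norm_num [dRes, val, cN]⟩

theorem adm_z_4_51 : AdmN 4 51 (0) :=
  ⟨by norm_num, (-19/200 : ℝ), (59731337/1200000000 : ℝ), (-769429/8000000 : ℝ), (-54481/360000 : ℝ),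
    (-1/600 : ℝ), (-20573/40000 : ℝ),
    by refine ⟨?_, ?_, ?_, ?_, ?_⟩ <;> norm_num [dRes, val, cN]⟩

theorem adm_z_4_52 : AdmN 4 52 (0) :=
  ⟨by norm_num, (-49/500 : ℝ), (11757007/229500000 : ℝ), (-4878349/51000000 : ℝ), (-139691/918000 : ℝ),
    (-1/612 : ℝ), (-156313/306000 : ℝ),
    by refine ⟨?_, ?_, ?_, ?_, ?_⟩ <;> norm_num [dRes, val, cN]⟩

theorem adm_z_4_53 : AdmN 4 53 (0) :=
  ⟨by norm_num, (-97/1000 : ℝ), (1648300151/32448000000 : ℝ), (-59806243/624000000 : ℝ), (-94781/624000 : ℝ),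
    (-1/624 : ℝ), (-319481/624000 : ℝ),
    by refine ⟨?_, ?_, ?_, ?_, ?_⟩ <;> norm_num [dRes, val, cN]⟩

theorem adm_z_4_54 : AdmN 4 54 (0) :=
  ⟨by norm_num, (-483/5000 : ℝ), (1600517363/31601250000 : ℝ), (-4575612619/47700000000 : ℝ), (-482669/3180000 : ℝ),
    (-1/636 : ℝ), (-543199/1060000 : ℝ),
    by refine ⟨?_, ?_, ?_, ?_, ?_⟩ <;> norm_num [dRes, val, cN]⟩

theorem adm_z_4_55 : AdmN 4 55 (0) :=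
  ⟨by norm_num, (-19/200 : ℝ), (23294647/466560000 : ℝ), (-2494007/25920000 : ℝ), (-58841/388800 : ℝ),
    (-1/648 : ℝ), (-13331/25920 : ℝ),
    by refine ⟨?_, ?_, ?_, ?_, ?_⟩ <;> norm_num [dRes, val, cN]⟩

theorem adm_z_5_3 : AdmN 5 3 (0) :=
  ⟨by norm_num, (-53/200 : ℝ), (891251/11200000 : ℝ), (-220139/5600000 : ℝ), (-4337/28000 : ℝ),
    (-1/28 : ℝ), (-2133/7000 : ℝ),
    by refine ⟨?_, ?_, ?_, ?_, ?_⟩ <;> norm_num [dRes, val, cN]⟩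

theorem adm_z_5_4 : AdmN 5 4 (0) :=
  ⟨by norm_num, (-7/25 : ℝ), (17036/196875 : ℝ), (-1459/37500 : ℝ), (-119/750 : ℝ),
    (-1/42 : ℝ), (-107/375 : ℝ),
    by refine ⟨?_, ?_, ?_, ?_, ?_⟩ <;> norm_num [dRes, val, cN]⟩

theorem adm_z_5_5 : AdmN 5 5 (0) :=
  ⟨by norm_num, (-29/100 : ℝ), (1017577/11200000 : ℝ), (-106681/2800000 : ℝ), (-4511/28000 : ℝ),
    (-1/56 : ℝ), (-1909/7000 : ℝ),
    by refine ⟨?_, ?_, ?_, ?_, ?_⟩ <;> norm_num [dRes, val, cN]⟩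

theorem adm_z_5_6 : AdmN 5 6 (0) :=
  ⟨by norm_num, (-59/200 : ℝ), (466609/5000000 : ℝ), (-264703/7000000 : ℝ), (-5683/35000 : ℝ),
    (-1/70 : ℝ), (-4659/17500 : ℝ),
    by refine ⟨?_, ?_, ?_, ?_, ?_⟩ <;> norm_num [dRes, val, cN]⟩

theorem adm_z_5_7 : AdmN 5 7 (0) :=
  ⟨by norm_num, (-11/40 : ℝ), (14719/161280 : ℝ), (-28751/672000 : ℝ), (-2659/16800 : ℝ),
    (-1/84 : ℝ), (-173/600 : ℝ),
    by refine ⟨?_, ?_, ?_, ?_, ?_⟩ <;> norm_num [dRes, val, cN]⟩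

theorem adm_z_5_8 : AdmN 5 8 (0) :=
  ⟨by norm_num, (-51/200 : ℝ), (1518273/17150000 : ℝ), (-29053/612500 : ℝ), (-944/6125 : ℝ),
    (-1/98 : ℝ), (-7611/24500 : ℝ),
    by refine ⟨?_, ?_, ?_, ?_, ?_⟩ <;> norm_num [dRes, val, cN]⟩

theorem adm_z_5_9 : AdmN 5 9 (0) :=
  ⟨by norm_num, (-6/25 : ℝ), (966087/11200000 : ℝ), (-71139/1400000 : ℝ), (-151/1000 : ℝ),
    (-1/112 : ℝ), (-573/1750 : ℝ),
    by refine ⟨?_, ?_, ?_, ?_, ?_⟩ <;> norm_num [dRes, val, cN]⟩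

theorem adm_z_5_10 : AdmN 5 10 (0) :=
  ⟨by norm_num, (-9/40 : ℝ), (126307/1512000 : ℝ), (-27233/504000 : ℝ), (-207/1400 : ℝ),
    (-1/126 : ℝ), (-241/700 : ℝ),
    by refine ⟨?_, ?_, ?_, ?_, ?_⟩ <;> norm_num [dRes, val, cN]⟩

theorem adm_z_5_11 : AdmN 5 11 (0) :=
  ⟨by norm_num, (-43/200 : ℝ), (22882459/280000000 : ℝ), (-1572499/28000000 : ℝ), (-20407/140000 : ℝ),
    (-1/140 : ℝ), (-12443/35000 : ℝ),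
    by refine ⟨?_, ?_, ?_, ?_, ?_⟩ <;> norm_num [dRes, val, cN]⟩

theorem adm_z_5_12 : AdmN 5 12 (0) :=
  ⟨by norm_num, (-41/200 : ℝ), (1349611/16940000 : ℝ), (-448229/7700000 : ℝ), (-5531/38500 : ℝ),
    (-1/154 : ℝ), (-14121/38500 : ℝ),
    by refine ⟨?_, ?_, ?_, ?_, ?_⟩ <;> norm_num [dRes, val, cN]⟩

theorem adm_z_5_13 : AdmN 5 13 (0) :=
  ⟨by norm_num, (-39/200 : ℝ), (1485929/19200000 : ℝ), (-2022541/33600000 : ℝ), (-7927/56000 : ℝ),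
    (-1/168 : ℝ), (-5293/14000 : ℝ),
    by refine ⟨?_, ?_, ?_, ?_, ?_⟩ <;> norm_num [dRes, val, cN]⟩

theorem adm_z_5_14 : AdmN 5 14 (0) :=
  ⟨by norm_num, (-19/100 : ℝ), (4520499/59150000 : ℝ), (-278533/4550000 : ℝ), (-6393/45500 : ℝ),
    (-1/182 : ℝ), (-1247/3250 : ℝ),
    by refine ⟨?_, ?_, ?_, ?_, ?_⟩ <;> norm_num [dRes, val, cN]⟩

theorem adm_z_5_15 : AdmN 5 15 (0) :=
  ⟨by norm_num, (-37/200 : ℝ), (41358703/548800000 : ℝ), (-2438679/39200000 : ℝ), (-27333/196000 : ℝ),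
    (-1/196 : ℝ), (-19077/49000 : ℝ),
    by refine ⟨?_, ?_, ?_, ?_, ?_⟩ <;> norm_num [dRes, val, cN]⟩

theorem adm_z_5_16 : AdmN 5 16 (0) :=
  ⟨by norm_num, (-7/40 : ℝ), (114379/1575000 : ℝ), (-13453/210000 : ℝ), (-103/750 : ℝ),
    (-1/210 : ℝ), (-601/1500 : ℝ),
    by refine ⟨?_, ?_, ?_, ?_, ?_⟩ <;> norm_num [dRes, val, cN]⟩

theorem adm_z_6_3 : AdmN 6 3 (0) :=
  ⟨by norm_num, (-59/200 : ℝ), (1474069/19200000 : ℝ), (-281279/9600000 : ℝ), (-6419/48000 : ℝ),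
    (-1/32 : ℝ), (-2473/9600 : ℝ),
    by refine ⟨?_, ?_, ?_, ?_, ?_⟩ <;> norm_num [dRes, val, cN]⟩

theorem adm_z_6_4 : AdmN 6 4 (0) :=
  ⟨by norm_num, (-31/100 : ℝ), (27959/337500 : ℝ), (-51209/1800000 : ℝ), (-2461/18000 : ℝ),
    (-1/48 : ℝ), (-43/180 : ℝ),
    by refine ⟨?_, ?_, ?_, ?_, ?_⟩ <;> norm_num [dRes, val, cN]⟩

theorem adm_z_6_5 : AdmN 6 5 (0) :=
  ⟨by norm_num, (-8/25 : ℝ), (17283/200000 : ℝ), (-16501/600000 : ℝ), (-52/375 : ℝ),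
    (-1/64 : ℝ), (-17/75 : ℝ),
    by refine ⟨?_, ?_, ?_, ?_, ?_⟩ <;> norm_num [dRes, val, cN]⟩

theorem adm_z_6_6 : AdmN 6 6 (0) :=
  ⟨by norm_num, (-59/200 : ℝ), (639211/7500000 : ℝ), (-98497/3000000 : ℝ), (-2017/15000 : ℝ),
    (-1/80 : ℝ), (-3047/12000 : ℝ),
    by refine ⟨?_, ?_, ?_, ?_, ?_⟩ <;> norm_num [dRes, val, cN]⟩

theorem adm_z_6_7 : AdmN 6 7 (0) :=
  ⟨by norm_num, (-11/40 : ℝ), (23197/276480 : ℝ), (-1699/46080 : ℝ), (-151/1152 : ℝ),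
    (-1/96 : ℝ), (-1589/5760 : ℝ),
    by refine ⟨?_, ?_, ?_, ?_, ?_⟩ <;> norm_num [dRes, val, cN]⟩

theorem adm_z_6_8 : AdmN 6 8 (0) :=
  ⟨by norm_num, (-51/200 : ℝ), (801881/9800000 : ℝ), (-227709/5600000 : ℝ), (-10723/84000 : ℝ),
    (-1/112 : ℝ), (-2503/8400 : ℝ),
    by refine ⟨?_, ?_, ?_, ?_, ?_⟩ <;> norm_num [dRes, val, cN]⟩

theorem adm_z_6_9 : AdmN 6 9 (0) :=
  ⟨by norm_num, (-6/25 : ℝ), (64043/800000 : ℝ), (-17367/400000 : ℝ), (-1501/12000 : ℝ),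
    (-1/128 : ℝ), (-151/480 : ℝ),
    by refine ⟨?_, ?_, ?_, ?_, ?_⟩ <;> norm_num [dRes, val, cN]⟩

theorem adm_z_6_10 : AdmN 6 10 (0) :=
  ⟨by norm_num, (-229/1000 : ℝ), (95621279/1215000000 : ℝ), (-12257773/270000000 : ℝ), (-33263/270000 : ℝ),
    (-1/144 : ℝ), (-35291/108000 : ℝ),
    by refine ⟨?_, ?_, ?_, ?_, ?_⟩ <;> norm_num [dRes, val, cN]⟩

theorem adm_z_7_3 : AdmN 7 3 (0) :=
  ⟨by norm_num, (-8/25 : ℝ), (9269/126000 : ℝ), (-157/7000 : ℝ), (-223/1890 : ℝ),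
    (-1/36 : ℝ), (-116/525 : ℝ),
    by refine ⟨?_, ?_, ?_, ?_, ?_⟩ <;> norm_num [dRes, val, cN]⟩

theorem adm_z_7_4 : AdmN 7 4 (0) :=
  ⟨by norm_num, (-67/200 : ℝ), (1783949/22680000 : ℝ), (-53857/2520000 : ℝ), (-13661/113400 : ℝ),
    (-1/54 : ℝ), (-958/4725 : ℝ),
    by refine ⟨?_, ?_, ?_, ?_, ?_⟩ <;> norm_num [dRes, val, cN]⟩

theorem adm_z_7_5 : AdmN 7 5 (0) :=
  ⟨by norm_num, (-33/100 : ℝ), (6499/80640 : ℝ), (-6423/280000 : ℝ), (-1007/8400 : ℝ),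
    (-1/72 : ℝ), (-871/4200 : ℝ),
    by refine ⟨?_, ?_, ?_, ?_, ?_⟩ <;> norm_num [dRes, val, cN]⟩

theorem adm_z_7_6 : AdmN 7 6 (0) :=
  ⟨by norm_num, (-59/200 : ℝ), (4996457/63000000 : ℝ), (-366547/12600000 : ℝ), (-21701/189000 : ℝ),
    (-1/90 : ℝ), (-1289/5250 : ℝ),
    by refine ⟨?_, ?_, ?_, ?_, ?_⟩ <;> norm_num [dRes, val, cN]⟩

theorem adm_z_7_7 : AdmN 7 7 (0) :=
  ⟨by norm_num, (-11/40 : ℝ), (31663/403200 : ℝ), (-19651/604800 : ℝ), (-5077/45360 : ℝ),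
    (-1/108 : ℝ), (-2021/7560 : ℝ),
    by refine ⟨?_, ?_, ?_, ?_, ?_⟩ <;> norm_num [dRes, val, cN]⟩

theorem adm_z_8_3 : AdmN 8 3 (0) :=
  ⟨by norm_num, (-17/50 : ℝ), (5599/80000 : ℝ), (-3533/200000 : ℝ), (-2957/28000 : ℝ),
    (-1/40 : ℝ), (-771/4000 : ℝ),
    by refine ⟨?_, ?_, ?_, ?_, ?_⟩ <;> norm_num [dRes, val, cN]⟩

theorem adm_z_8_4 : AdmN 8 4 (0) :=
  ⟨by norm_num, (-71/200 : ℝ), (3740243/50400000 : ℝ), (-555113/33600000 : ℝ), (-18097/168000 : ℝ),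
    (-1/60 : ℝ), (-4199/24000 : ℝ),
    by refine ⟨?_, ?_, ?_, ?_, ?_⟩ <;> norm_num [dRes, val, cN]⟩

theorem adm_z_8_5 : AdmN 8 5 (0) :=
  ⟨by norm_num, (-33/100 : ℝ), (3376917/44800000 : ℝ), (-233273/11200000 : ℝ), (-11719/112000 : ℝ),
    (-1/80 : ℝ), (-129/640 : ℝ),
    by refine ⟨?_, ?_, ?_, ?_, ?_⟩ <;> norm_num [dRes, val, cN]⟩

theorem adm_z_8_6 : AdmN 8 6 (0) :=
  ⟨by norm_num, (-59/200 : ℝ), (5234609/70000000 : ℝ), (-1464401/56000000 : ℝ), (-28061/280000 : ℝ),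
    (-1/100 : ℝ), (-9579/40000 : ℝ),
    by refine ⟨?_, ?_, ?_, ?_, ?_⟩ <;> norm_num [dRes, val, cN]⟩

theorem adm_z_9_3 : AdmN 9 3 (0) :=
  ⟨by norm_num, (-71/200 : ℝ), (4197367/63360000 : ℝ), (-456551/31680000 : ℝ), (-15119/158400 : ℝ),
    (-1/44 : ℝ), (-3403/19800 : ℝ),
    by refine ⟨?_, ?_, ?_, ?_, ?_⟩ <;> norm_num [dRes, val, cN]⟩

theorem adm_z_9_4 : AdmN 9 4 (0) :=
  ⟨by norm_num, (-37/100 : ℝ), (49769/712800 : ℝ), (-78677/5940000 : ℝ), (-5779/59400 : ℝ),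
    (-1/66 : ℝ), (-2293/14850 : ℝ),
    by refine ⟨?_, ?_, ?_, ?_, ?_⟩ <;> norm_num [dRes, val, cN]⟩

theorem adm_z_9_5 : AdmN 9 5 (0) :=
  ⟨by norm_num, (-33/100 : ℝ), (501553/7040000 : ℝ), (-100723/5280000 : ℝ), (-1337/14400 : ℝ),
    (-1/88 : ℝ), (-71/360 : ℝ),
    by refine ⟨?_, ?_, ?_, ?_, ?_⟩ <;> norm_num [dRes, val, cN]⟩

theorem adm_z_10_3 : AdmN 10 3 (0) :=
  ⟨by norm_num, (-37/100 : ℝ), (452867/7200000 : ℝ), (-41993/3600000 : ℝ), (-9433/108000 : ℝ),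
    (-1/48 : ℝ), (-609/4000 : ℝ),
    by refine ⟨?_, ?_, ?_, ?_, ?_⟩ <;> norm_num [dRes, val, cN]⟩

theorem adm_z_11_3 : AdmN 11 3 (0) :=
  ⟨by norm_num, (-19/50 : ℝ), (106441/1787500 : ℝ), (-1359/137500 : ℝ), (-5739/71500 : ℝ),
    (-1/52 : ℝ), (-993/7150 : ℝ),
    by refine ⟨?_, ?_, ?_, ?_, ?_⟩ <;> norm_num [dRes, val, cN]⟩

theorem adm_z_12_3 : AdmN 12 3 (0) :=
  ⟨by norm_num, (-39/100 : ℝ), (12659/224000 : ℝ), (-933/112000 : ℝ), (-2749/36960 : ℝ),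
    (-1/56 : ℝ), (-2119/16800 : ℝ),
    by refine ⟨?_, ?_, ?_, ?_, ?_⟩ <;> norm_num [dRes, val, cN]⟩

theorem adm_z_13_3 : AdmN 13 3 (0) :=
  ⟨by norm_num, (-79/200 : ℝ), (133993/2496000 : ℝ), (-232793/31200000 : ℝ), (-32299/468000 : ℝ),
    (-1/60 : ℝ), (-1549/13000 : ℝ),
    by refine ⟨?_, ?_, ?_, ?_, ?_⟩ <;> norm_num [dRes, val, cN]⟩

theorem adm_z_14_3 : AdmN 14 3 (0) :=
  ⟨by norm_num, (-2/5 : ℝ), (133/2600 : ℝ), (-139/20800 : ℝ), (-67/1040 : ℝ),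
    (-1/64 : ℝ), (-9/80 : ℝ),
    by refine ⟨?_, ?_, ?_, ?_, ?_⟩ <;> norm_num [dRes, val, cN]⟩

theorem adm_z_15_3 : AdmN 15 3 (0) :=
  ⟨by norm_num, (-41/100 : ℝ), (165709/3400000 : ℝ), (-9421/1700000 : ℝ), (-7233/119000 : ℝ),
    (-1/68 : ℝ), (-857/8500 : ℝ),
    by refine ⟨?_, ?_, ?_, ?_, ?_⟩ <;> norm_num [dRes, val, cN]⟩

theorem adm_z_16_3 : AdmN 16 3 (0) :=
  ⟨by norm_num, (-83/200 : ℝ), (596093/12800000 : ℝ), (-284027/57600000 : ℝ), (-49493/864000 : ℝ),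
    (-1/72 : ℝ), (-1817/19200 : ℝ),
    by refine ⟨?_, ?_, ?_, ?_, ?_⟩ <;> norm_num [dRes, val, cN]⟩

theorem adm_z_17_3 : AdmN 17 3 (0) :=
  ⟨by norm_num, (-21/50 : ℝ), (28779/646000 : ℝ), (-1413/323000 : ℝ), (-2801/51680 : ℝ),
    (-1/76 : ℝ), (-1431/16150 : ℝ),
    by refine ⟨?_, ?_, ?_, ?_, ?_⟩ <;> norm_num [dRes, val, cN]⟩

theorem adm_z_18_3 : AdmN 18 3 (0) :=
  ⟨by norm_num, (-17/40 : ℝ), (55679/1305600 : ℝ), (-12617/3264000 : ℝ), (-247/4800 : ℝ),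
    (-1/80 : ℝ), (-397/4800 : ℝ),
    by refine ⟨?_, ?_, ?_, ?_, ?_⟩ <;> norm_num [dRes, val, cN]⟩

theorem adm_z_19_3 : AdmN 19 3 (0) :=
  ⟨by norm_num, (-17/40 : ℝ), (16609/403200 : ℝ), (-757/201600 : ℝ), (-737/15120 : ℝ),
    (-1/84 : ℝ), (-23/280 : ℝ),
    by refine ⟨?_, ?_, ?_, ?_, ?_⟩ <;> norm_num [dRes, val, cN]⟩

theorem adm_z_20_3 : AdmN 20 3 (0) :=
  ⟨by norm_num, (-43/100 : ℝ), (6606191/167200000 : ℝ), (-276569/83600000 : ℝ), (-38917/836000 : ℝ),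
    (-1/88 : ℝ), (-3363/44000 : ℝ),
    by refine ⟨?_, ?_, ?_, ?_, ?_⟩ <;> norm_num [dRes, val, cN]⟩

theorem adm_z_21_3 : AdmN 21 3 (0) :=
  ⟨by norm_num, (-43/100 : ℝ), (7400551/193200000 : ℝ), (-311111/96600000 : ℝ), (-42823/966000 : ℝ),
    (-1/92 : ℝ), (-3671/48300 : ℝ),
    by refine ⟨?_, ?_, ?_, ?_, ?_⟩ <;> norm_num [dRes, val, cN]⟩

theorem adm_z_22_3 : AdmN 22 3 (0) :=
  ⟨by norm_num, (-43/100 : ℝ), (2381/64000 : ℝ), (-301/96000 : ℝ), (-853/20160 : ℝ),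
    (-1/96 : ℝ), (-121/1600 : ℝ),
    by refine ⟨?_, ?_, ?_, ?_, ?_⟩ <;> norm_num [dRes, val, cN]⟩

theorem adm_z_23_3 : AdmN 23 3 (0) :=
  ⟨by norm_num, (-43/100 : ℝ), (1831309/50600000 : ℝ), (-386201/126500000 : ℝ), (-51193/1265000 : ℝ),
    (-1/100 : ℝ), (-4329/57500 : ℝ),
    by refine ⟨?_, ?_, ?_, ?_, ?_⟩ <;> norm_num [dRes, val, cN]⟩

theorem adm_z_24_3 : AdmN 24 3 (0) :=
  ⟨by norm_num, (-43/100 : ℝ), (10121203/287040000 : ℝ), (-426749/143520000 : ℝ), (-55657/1435200 : ℝ),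
    (-1/104 : ℝ), (-4679/62400 : ℝ),
    by refine ⟨?_, ?_, ?_, ?_, ?_⟩ <;> norm_num [dRes, val, cN]⟩

theorem adm_z_10_4 : AdmN 10 4 (0) :=
  ⟨by norm_num, (-37/100 : ℝ), (133373/2025000 : ℝ), (-4183/337500 : ℝ), (-1771/20250 : ℝ),
    (-1/72 : ℝ), (-1361/9000 : ℝ),
    by refine ⟨?_, ?_, ?_, ?_, ?_⟩ <;> norm_num [dRes, val, cN]⟩

theorem adm_z_11_4 : AdmN 11 4 (0) :=
  ⟨by norm_num, (-37/100 : ℝ), (366047/5850000 : ℝ), (-22687/1950000 : ℝ), (-1549/19500 : ℝ),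
    (-1/78 : ℝ), (-29/195 : ℝ),
    by refine ⟨?_, ?_, ?_, ?_, ?_⟩ <;> norm_num [dRes, val, cN]⟩

theorem adm_z_12_4 : AdmN 12 4 (0) :=
  ⟨by norm_num, (-37/100 : ℝ), (355163/5940000 : ℝ), (-303673/27720000 : ℝ), (-20171/277200 : ℝ),
    (-1/84 : ℝ), (-3697/25200 : ℝ),
    by refine ⟨?_, ?_, ?_, ?_, ?_⟩ <;> norm_num [dRes, val, cN]⟩

theorem adm_n_10_5 : AdmN 10 5 (-1/7) :=
  ⟨by norm_num, (-33/100 : ℝ), (1227361/22400000 : ℝ), (-263759/16800000 : ℝ), (-4659/56000 : ℝ),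
    (-19/672 : ℝ), (-5709/56000 : ℝ),
    by refine ⟨?_, ?_, ?_, ?_, ?_⟩ <;> norm_num [dRes, val, cN]⟩

theorem adm_o_3_3 : AdmN 3 3 (1) :=
  ⟨by norm_num, (-11/40 : ℝ), (167/600 : ℝ), (-983/6000 : ℝ), (-47/150 : ℝ),
    (1/5 : ℝ), (-61/75 : ℝ),
    by refine ⟨?_, ?_, ?_, ?_, ?_⟩ <;> norm_num [dRes, val, cN]⟩

theorem adm_o_3_4 : AdmN 3 4 (1) :=
  ⟨by norm_num, (-53/200 : ℝ), (640207/2700000 : ℝ), (-124351/900000 : ℝ), (-1333/4500 : ℝ),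
    (2/15 : ℝ), (-1871/2250 : ℝ),
    by refine ⟨?_, ?_, ?_, ?_, ?_⟩ <;> norm_num [dRes, val, cN]⟩

theorem adm_o_3_5 : AdmN 3 5 (1) :=
  ⟨by norm_num, (-51/200 : ℝ), (168379/800000 : ℝ), (-25431/200000 : ℝ), (-857/3000 : ℝ),
    (1/10 : ℝ), (-251/300 : ℝ),
    by refine ⟨?_, ?_, ?_, ?_, ?_⟩ <;> norm_num [dRes, val, cN]⟩

theorem adm_o_3_6 : AdmN 3 6 (1) :=
  ⟨by norm_num, (-1/4 : ℝ), (193/1000 : ℝ), (-3/25 : ℝ), (-7/25 : ℝ),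
    (2/25 : ℝ), (-21/25 : ℝ),
    by refine ⟨?_, ?_, ?_, ?_, ?_⟩ <;> norm_num [dRes, val, cN]⟩

theorem adm_o_3_7 : AdmN 3 7 (1) :=
  ⟨by norm_num, (-49/200 : ℝ), (97337/540000 : ℝ), (-1303/11250 : ℝ), (-62/225 : ℝ),
    (1/15 : ℝ), (-946/1125 : ℝ),
    by refine ⟨?_, ?_, ?_, ?_, ?_⟩ <;> norm_num [dRes, val, cN]⟩

theorem adm_o_3_8 : AdmN 3 8 (1) :=
  ⟨by norm_num, (-6/25 : ℝ), (5219/30625 : ℝ), (-9917/87500 : ℝ), (-1427/5250 : ℝ),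
    (2/35 : ℝ), (-2206/2625 : ℝ),
    by refine ⟨?_, ?_, ?_, ?_, ?_⟩ <;> norm_num [dRes, val, cN]⟩

theorem adm_o_3_9 : AdmN 3 9 (1) :=
  ⟨by norm_num, (-47/200 : ℝ), (519937/3200000 : ℝ), (-44761/400000 : ℝ), (-537/2000 : ℝ),
    (1/20 : ℝ), (-839/1000 : ℝ),
    by refine ⟨?_, ?_, ?_, ?_, ?_⟩ <;> norm_num [dRes, val, cN]⟩

theorem adm_o_3_10 : AdmN 3 10 (1) :=
  ⟨by norm_num, (-9/40 : ℝ), (50023/324000 : ℝ), (-4067/36000 : ℝ), (-79/300 : ℝ),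
    (2/45 : ℝ), (-5/6 : ℝ),
    by refine ⟨?_, ?_, ?_, ?_, ?_⟩ <;> norm_num [dRes, val, cN]⟩

theorem adm_o_3_11 : AdmN 3 11 (1) :=
  ⟨by norm_num, (-43/200 : ℝ), (183853/1250000 : ℝ), (-28611/250000 : ℝ), (-323/1250 : ℝ),
    (1/25 : ℝ), (-517/625 : ℝ),
    by refine ⟨?_, ?_, ?_, ?_, ?_⟩ <;> norm_num [dRes, val, cN]⟩

theorem adm_o_3_12 : AdmN 3 12 (1) :=
  ⟨by norm_num, (-41/200 : ℝ), (339553/2420000 : ℝ), (-25561/220000 : ℝ), (-279/1100 : ℝ),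
    (2/55 : ℝ), (-2257/2750 : ℝ),
    by refine ⟨?_, ?_, ?_, ?_, ?_⟩ <;> norm_num [dRes, val, cN]⟩

theorem adm_o_3_13 : AdmN 3 13 (1) :=
  ⟨by norm_num, (-39/200 : ℝ), (38567/288000 : ℝ), (-70867/600000 : ℝ), (-249/1000 : ℝ),
    (1/30 : ℝ), (-407/500 : ℝ),
    by refine ⟨?_, ?_, ?_, ?_, ?_⟩ <;> norm_num [dRes, val, cN]⟩

theorem adm_o_3_14 : AdmN 3 14 (1) :=
  ⟨by norm_num, (-19/100 : ℝ), (547541/4225000 : ℝ), (-57787/487500 : ℝ), (-1202/4875 : ℝ),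
    (2/65 : ℝ), (-3953/4875 : ℝ),
    by refine ⟨?_, ?_, ?_, ?_, ?_⟩ <;> norm_num [dRes, val, cN]⟩

theorem adm_o_3_15 : AdmN 3 15 (1) :=
  ⟨by norm_num, (-37/200 : ℝ), (1846039/14700000 : ℝ), (-62533/525000 : ℝ), (-641/2625 : ℝ),
    (1/35 : ℝ), (-424/525 : ℝ),
    by refine ⟨?_, ?_, ?_, ?_, ?_⟩ <;> norm_num [dRes, val, cN]⟩

theorem adm_o_3_16 : AdmN 3 16 (1) :=
  ⟨by norm_num, (-7/40 : ℝ), (323707/2700000 : ℝ), (-21847/180000 : ℝ), (-1079/4500 : ℝ),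
    (2/75 : ℝ), (-1801/2250 : ℝ),
    by refine ⟨?_, ?_, ?_, ?_, ?_⟩ <;> norm_num [dRes, val, cN]⟩

theorem adm_o_3_17 : AdmN 3 17 (1) :=
  ⟨by norm_num, (-17/100 : ℝ), (14881/128000 : ℝ), (-977/8000 : ℝ), (-19/80 : ℝ),
    (1/40 : ℝ), (-797/1000 : ℝ),
    by refine ⟨?_, ?_, ?_, ?_, ?_⟩ <;> norm_num [dRes, val, cN]⟩

theorem adm_o_3_18 : AdmN 3 18 (1) :=
  ⟨by norm_num, (-33/200 : ℝ), (651827/5780000 : ℝ), (-209011/1700000 : ℝ), (-5999/25500 : ℝ),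
    (2/85 : ℝ), (-10117/12750 : ℝ),
    by refine ⟨?_, ?_, ?_, ?_, ?_⟩ <;> norm_num [dRes, val, cN]⟩

theorem adm_o_3_19 : AdmN 3 19 (1) :=
  ⟨by norm_num, (-4/25 : ℝ), (332321/3037500 : ℝ), (-41791/337500 : ℝ), (-1573/6750 : ℝ),
    (1/45 : ℝ), (-2666/3375 : ℝ),
    by refine ⟨?_, ?_, ?_, ?_, ?_⟩ <;> norm_num [dRes, val, cN]⟩

theorem adm_o_3_20 : AdmN 3 20 (1) :=
  ⟨by norm_num, (-4/25 : ℝ), (122081/1128125 : ℝ), (-87823/712500 : ℝ), (-3319/14250 : ℝ),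
    (2/95 : ℝ), (-1126/1425 : ℝ),
    by refine ⟨?_, ?_, ?_, ?_, ?_⟩ <;> norm_num [dRes, val, cN]⟩

theorem adm_o_4_4 : AdmN 4 4 (1) :=
  ⟨by norm_num, (-73/200 : ℝ), (6317/28800 : ℝ), (-19759/288000 : ℝ), (-1051/4320 : ℝ),
    (5/36 : ℝ), (-253/288 : ℝ),
    by refine ⟨?_, ?_, ?_, ?_, ?_⟩ <;> norm_num [dRes, val, cN]⟩

theorem adm_o_4_5 : AdmN 4 5 (1) :=
  ⟨by norm_num, (-33/100 : ℝ), (76609/384000 : ℝ), (-6773/96000 : ℝ), (-73/320 : ℝ),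
    (5/48 : ℝ), (-277/320 : ℝ),
    by refine ⟨?_, ?_, ?_, ?_, ?_⟩ <;> norm_num [dRes, val, cN]⟩

theorem adm_o_4_6 : AdmN 4 6 (1) :=
  ⟨by norm_num, (-59/200 : ℝ), (4563/25000 : ℝ), (-36203/480000 : ℝ), (-1549/7200 : ℝ),
    (1/12 : ℝ), (-677/800 : ℝ),
    by refine ⟨?_, ?_, ?_, ?_, ?_⟩ <;> norm_num [dRes, val, cN]⟩

theorem adm_o_4_7 : AdmN 4 7 (1) :=
  ⟨by norm_num, (-11/40 : ℝ), (2603/15360 : ℝ), (-1777/23040 : ℝ), (-359/1728 : ℝ),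
    (5/72 : ℝ), (-481/576 : ℝ),
    by refine ⟨?_, ?_, ?_, ?_, ?_⟩ <;> norm_num [dRes, val, cN]⟩

theorem adm_o_4_8 : AdmN 4 8 (1) :=
  ⟨by norm_num, (-51/200 : ℝ), (4959/31360 : ℝ), (-2143/26880 : ℝ), (-45/224 : ℝ),
    (5/84 : ℝ), (-921/1120 : ℝ),
    by refine ⟨?_, ?_, ?_, ?_, ?_⟩ <;> norm_num [dRes, val, cN]⟩

theorem adm_o_4_9 : AdmN 4 9 (1) :=
  ⟨by norm_num, (-6/25 : ℝ), (4289/28800 : ℝ), (-2933/36000 : ℝ), (-47/240 : ℝ),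
    (5/96 : ℝ), (-13/16 : ℝ),
    by refine ⟨?_, ?_, ?_, ?_, ?_⟩ <;> norm_num [dRes, val, cN]⟩

theorem adm_o_4_10 : AdmN 4 10 (1) :=
  ⟨by norm_num, (-9/40 : ℝ), (32779/233280 : ℝ), (-1733/20736 : ℝ), (-55/288 : ℝ),
    (5/108 : ℝ), (-77/96 : ℝ),
    by refine ⟨?_, ?_, ?_, ?_, ?_⟩ <;> norm_num [dRes, val, cN]⟩

theorem adm_o_4_11 : AdmN 4 11 (1) :=
  ⟨by norm_num, (-43/200 : ℝ), (1286167/9600000 : ℝ), (-81257/960000 : ℝ), (-901/4800 : ℝ),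
    (1/24 : ℝ), (-3817/4800 : ℝ),
    by refine ⟨?_, ?_, ?_, ?_, ?_⟩ <;> norm_num [dRes, val, cN]⟩

theorem adm_o_4_12 : AdmN 4 12 (1) :=
  ⟨by norm_num, (-41/200 : ℝ), (247661/1936000 : ℝ), (-90719/1056000 : ℝ), (-2923/15840 : ℝ),
    (5/132 : ℝ), (-1387/1760 : ℝ),
    by refine ⟨?_, ?_, ?_, ?_, ?_⟩ <;> norm_num [dRes, val, cN]⟩

theorem adm_o_4_13 : AdmN 4 13 (1) :=
  ⟨by norm_num, (-39/200 : ℝ), (1013639/8294400 : ℝ), (-60347/691200 : ℝ), (-209/1152 : ℝ),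
    (5/144 : ℝ), (-1499/1920 : ℝ),
    by refine ⟨?_, ?_, ?_, ?_, ?_⟩ <;> norm_num [dRes, val, cN]⟩

theorem adm_o_4_14 : AdmN 4 14 (1) :=
  ⟨by norm_num, (-19/100 : ℝ), (5999/50700 : ℝ), (-27341/312000 : ℝ), (-187/1040 : ℝ),
    (5/156 : ℝ), (-485/624 : ℝ),
    by refine ⟨?_, ?_, ?_, ?_, ?_⟩ <;> norm_num [dRes, val, cN]⟩

theorem adm_o_4_15 : AdmN 4 15 (1) :=
  ⟨by norm_num, (-37/200 : ℝ), (2158459/18816000 : ℝ), (-39451/448000 : ℝ), (-3593/20160 : ℝ),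
    (5/168 : ℝ), (-1733/2240 : ℝ),
    by refine ⟨?_, ?_, ?_, ?_, ?_⟩ <;> norm_num [dRes, val, cN]⟩

theorem adm_o_4_16 : AdmN 4 16 (1) :=
  ⟨by norm_num, (-7/40 : ℝ), (15787/144000 : ℝ), (-5167/57600 : ℝ), (-757/4320 : ℝ),
    (1/36 : ℝ), (-1103/1440 : ℝ),
    by refine ⟨?_, ?_, ?_, ?_, ?_⟩ <;> norm_num [dRes, val, cN]⟩

theorem adm_o_4_17 : AdmN 4 17 (1) :=
  ⟨by norm_num, (-17/100 : ℝ), (653509/6144000 : ℝ), (-34661/384000 : ℝ), (-667/3840 : ℝ),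
    (5/192 : ℝ), (-2927/3840 : ℝ),
    by refine ⟨?_, ?_, ?_, ?_, ?_⟩ <;> norm_num [dRes, val, cN]⟩

theorem adm_o_4_18 : AdmN 4 18 (1) :=
  ⟨by norm_num, (-33/200 : ℝ), (429613/4161600 : ℝ), (-88981/979200 : ℝ), (-281/1632 : ℝ),
    (5/204 : ℝ), (-2063/2720 : ℝ),
    by refine ⟨?_, ?_, ?_, ?_, ?_⟩ <;> norm_num [dRes, val, cN]⟩

theorem adm_o_4_19 : AdmN 4 19 (1) :=
  ⟨by norm_num, (-4/25 : ℝ), (487/4860 : ℝ), (-2471/27000 : ℝ), (-553/3240 : ℝ),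
    (5/216 : ℝ), (-163/216 : ℝ),
    by refine ⟨?_, ?_, ?_, ?_, ?_⟩ <;> norm_num [dRes, val, cN]⟩

theorem adm_o_4_20 : AdmN 4 20 (1) :=
  ⟨by norm_num, (-4/25 : ℝ), (53671/541500 : ℝ), (-2597/28500 : ℝ), (-389/2280 : ℝ),
    (5/228 : ℝ), (-1721/2280 : ℝ),
    by refine ⟨?_, ?_, ?_, ?_, ?_⟩ <;> norm_num [dRes, val, cN]⟩

theorem adm_o_4_21 : AdmN 4 21 (1) :=
  ⟨by norm_num, (-31/200 : ℝ), (1232371/12800000 : ℝ), (-176333/1920000 : ℝ), (-4871/28800 : ℝ),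
    (1/48 : ℝ), (-2403/3200 : ℝ),
    by refine ⟨?_, ?_, ?_, ?_, ?_⟩ <;> norm_num [dRes, val, cN]⟩

theorem adm_o_4_22 : AdmN 4 22 (1) :=
  ⟨by norm_num, (-3/20 : ℝ), (14843/158760 : ℝ), (-5599/60480 : ℝ), (-169/1008 : ℝ),
    (5/252 : ℝ), (-251/336 : ℝ),
    by refine ⟨?_, ?_, ?_, ?_, ?_⟩ <;> norm_num [dRes, val, cN]⟩

theorem adm_o_4_23 : AdmN 4 23 (1) :=
  ⟨by norm_num, (-29/200 : ℝ), (843287/9292800 : ℝ), (-39421/422400 : ℝ), (-117/704 : ℝ),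
    (5/264 : ℝ), (-7847/10560 : ℝ),
    by refine ⟨?_, ?_, ?_, ?_, ?_⟩ <;> norm_num [dRes, val, cN]⟩

theorem adm_o_4_24 : AdmN 4 24 (1) :=
  ⟨by norm_num, (-29/200 : ℝ), (457073/5078400 : ℝ), (-205471/2208000 : ℝ), (-5503/33120 : ℝ),
    (5/276 : ℝ), (-547/736 : ℝ),
    by refine ⟨?_, ?_, ?_, ?_, ?_⟩ <;> norm_num [dRes, val, cN]⟩

theorem adm_o_4_25 : AdmN 4 25 (1) :=
  ⟨by norm_num, (-7/50 : ℝ), (33541/384000 : ℝ), (-13513/144000 : ℝ), (-1423/8640 : ℝ),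
    (5/288 : ℝ), (-2129/2880 : ℝ),
    by refine ⟨?_, ?_, ?_, ?_, ?_⟩ <;> norm_num [dRes, val, cN]⟩

theorem adm_o_4_26 : AdmN 4 26 (1) :=
  ⟨by norm_num, (-27/200 : ℝ), (423511/5000000 : ℝ), (-227107/2400000 : ℝ), (-653/4000 : ℝ),
    (1/60 : ℝ), (-2941/4000 : ℝ),
    by refine ⟨?_, ?_, ?_, ?_, ?_⟩ <;> norm_num [dRes, val, cN]⟩

theorem adm_o_4_27 : AdmN 4 27 (1) :=
  ⟨by norm_num, (-27/200 : ℝ), (16377557/194688000 : ℝ), (-707003/7488000 : ℝ), (-679/4160 : ℝ),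
    (5/312 : ℝ), (-3059/4160 : ℝ),
    by refine ⟨?_, ?_, ?_, ?_, ?_⟩ <;> norm_num [dRes, val, cN]⟩

theorem adm_o_4_28 : AdmN 4 28 (1) :=
  ⟨by norm_num, (-13/100 : ℝ), (587/7200 : ℝ), (-12341/129600 : ℝ), (-629/3888 : ℝ),
    (5/324 : ℝ), (-4739/6480 : ℝ),
    by refine ⟨?_, ?_, ?_, ?_, ?_⟩ <;> norm_num [dRes, val, cN]⟩

theorem adm_o_4_29 : AdmN 4 29 (1) :=
  ⟨by norm_num, (-13/100 : ℝ), (12197/150528 : ℝ), (-63869/672000 : ℝ), (-1087/6720 : ℝ),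
    (5/336 : ℝ), (-983/1344 : ℝ),
    by refine ⟨?_, ?_, ?_, ?_, ?_⟩ <;> norm_num [dRes, val, cN]⟩

theorem adm_o_4_30 : AdmN 4 30 (1) :=
  ⟨by norm_num, (-13/100 : ℝ), (101629/1261500 : ℝ), (-759/8000 : ℝ), (-3377/20880 : ℝ),
    (5/348 : ℝ), (-1697/2320 : ℝ),
    by refine ⟨?_, ?_, ?_, ?_, ?_⟩ <;> norm_num [dRes, val, cN]⟩

theorem adm_o_4_31 : AdmN 4 31 (1) :=
  ⟨by norm_num, (-1/8 : ℝ), (10787/138240 : ℝ), (-49/512 : ℝ), (-277/1728 : ℝ),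
    (1/72 : ℝ), (-419/576 : ℝ),
    by refine ⟨?_, ?_, ?_, ?_, ?_⟩ <;> norm_num [dRes, val, cN]⟩

theorem adm_o_4_32 : AdmN 4 32 (1) :=
  ⟨by norm_num, (-1/8 : ℝ), (28645/369024 : ℝ), (-2275/23808 : ℝ), (-159/992 : ℝ),
    (5/372 : ℝ), (-2165/2976 : ℝ),
    by refine ⟨?_, ?_, ?_, ?_, ?_⟩ <;> norm_num [dRes, val, cN]⟩

theorem adm_o_4_33 : AdmN 4 33 (1) :=
  ⟨by norm_num, (-3/25 : ℝ), (69217/921600 : ℝ), (-347/3600 : ℝ), (-61/384 : ℝ),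
    (5/384 : ℝ), (-463/640 : ℝ),
    by refine ⟨?_, ?_, ?_, ?_, ?_⟩ <;> norm_num [dRes, val, cN]⟩

theorem adm_o_4_34 : AdmN 4 34 (1) :=
  ⟨by norm_num, (-3/25 : ℝ), (73259/980100 : ℝ), (-2599/27000 : ℝ), (-629/3960 : ℝ),
    (5/396 : ℝ), (-191/264 : ℝ),
    by refine ⟨?_, ?_, ?_, ?_, ?_⟩ <;> norm_num [dRes, val, cN]⟩

theorem adm_o_4_35 : AdmN 4 35 (1) :=
  ⟨by norm_num, (-3/25 : ℝ), (2688/36125 : ℝ), (-4903/51000 : ℝ), (-27/170 : ℝ),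
    (5/408 : ℝ), (-123/170 : ℝ),
    by refine ⟨?_, ?_, ?_, ?_, ?_⟩ <;> norm_num [dRes, val, cN]⟩

theorem adm_o_4_36 : AdmN 4 36 (1) :=
  ⟨by norm_num, (-23/200 : ℝ), (1409497/19600000 : ℝ), (-325847/3360000 : ℝ), (-7933/50400 : ℝ),
    (1/84 : ℝ), (-4029/5600 : ℝ),
    by refine ⟨?_, ?_, ?_, ?_, ?_⟩ <;> norm_num [dRes, val, cN]⟩

theorem adm_o_4_37 : AdmN 4 37 (1) :=
  ⟨by norm_num, (-23/200 : ℝ), (8909689/124416000 : ℝ), (-334781/3456000 : ℝ), (-8159/51840 : ℝ),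
    (5/432 : ℝ), (-12433/17280 : ℝ),
    by refine ⟨?_, ?_, ?_, ?_, ?_⟩ <;> norm_num [dRes, val, cN]⟩

theorem adm_o_4_38 : AdmN 4 38 (1) :=
  ⟨by norm_num, (-23/200 : ℝ), (14647/205350 : ℝ), (-68743/710400 : ℝ), (-559/3552 : ℝ),
    (5/444 : ℝ), (-12779/17760 : ℝ),
    by refine ⟨?_, ?_, ?_, ?_, ?_⟩ <;> norm_num [dRes, val, cN]⟩

theorem adm_o_4_39 : AdmN 4 39 (1) :=
  ⟨by norm_num, (-11/100 : ℝ), (8371/121600 : ℝ), (-89021/912000 : ℝ), (-4267/27360 : ℝ),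
    (5/456 : ℝ), (-435/608 : ℝ),
    by refine ⟨?_, ?_, ?_, ?_, ?_⟩ <;> norm_num [dRes, val, cN]⟩

theorem adm_o_4_40 : AdmN 4 40 (1) :=
  ⟨by norm_num, (-11/100 : ℝ), (1251803/18252000 : ℝ), (-91277/936000 : ℝ), (-4379/28080 : ℝ),
    (5/468 : ℝ), (-6697/9360 : ℝ),
    by refine ⟨?_, ?_, ?_, ?_, ?_⟩ <;> norm_num [dRes, val, cN]⟩

theorem adm_o_4_41 : AdmN 4 41 (1) :=
  ⟨by norm_num, (-11/100 : ℝ), (2624293/38400000 : ℝ), (-93533/960000 : ℝ), (-499/3200 : ℝ),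
    (1/96 : ℝ), (-6869/9600 : ℝ),
    by refine ⟨?_, ?_, ?_, ?_, ?_⟩ <;> norm_num [dRes, val, cN]⟩

theorem adm_o_4_42 : AdmN 4 42 (1) :=
  ⟨by norm_num, (-21/200 : ℝ), (7970267/121032000 : ℝ), (-1160417/11808000 : ℝ), (-3041/19680 : ℝ),
    (5/492 : ℝ), (-4667/6560 : ℝ),
    by refine ⟨?_, ?_, ?_, ?_, ?_⟩ <;> norm_num [dRes, val, cN]⟩

theorem adm_o_4_43 : AdmN 4 43 (1) :=
  ⟨by norm_num, (-21/200 : ℝ), (6668657/101606400 : ℝ), (-237551/2419200 : ℝ), (-89/576 : ℝ),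
    (5/504 : ℝ), (-683/960 : ℝ),
    by refine ⟨?_, ?_, ?_, ?_, ?_⟩ <;> norm_num [dRes, val, cN]⟩

theorem adm_o_4_44 : AdmN 4 44 (1) :=
  ⟨by norm_num, (-21/200 : ℝ), (387089/5916800 : ℝ), (-405031/4128000 : ℝ), (-1063/6880 : ℝ),
    (5/516 : ℝ), (-979/1376 : ℝ),
    by refine ⟨?_, ?_, ?_, ?_, ?_⟩ <;> norm_num [dRes, val, cN]⟩

theorem adm_o_4_45 : AdmN 4 45 (1) :=
  ⟨by norm_num, (-21/200 : ℝ), (36365243/557568000 : ℝ), (-1242431/12672000 : ℝ), (-3263/21120 : ℝ),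
    (5/528 : ℝ), (-5009/7040 : ℝ),
    by refine ⟨?_, ?_, ?_, ?_, ?_⟩ <;> norm_num [dRes, val, cN]⟩

theorem adm_o_4_46 : AdmN 4 46 (1) :=
  ⟨by norm_num, (-13/125 : ℝ), (1634509/25312500 : ℝ), (-331289/3375000 : ℝ), (-12491/81000 : ℝ),
    (1/108 : ℝ), (-19189/27000 : ℝ),
    by refine ⟨?_, ?_, ?_, ?_, ?_⟩ <;> norm_num [dRes, val, cN]⟩

theorem adm_o_4_47 : AdmN 4 47 (1) :=
  ⟨by norm_num, (-103/1000 : ℝ), (324672019/5078400000 : ℝ), (-471727/4800000 : ℝ), (-16993/110400 : ℝ),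
    (5/552 : ℝ), (-78373/110400 : ℝ),
    by refine ⟨?_, ?_, ?_, ?_, ?_⟩ <;> norm_num [dRes, val, cN]⟩

theorem adm_o_4_48 : AdmN 4 48 (1) :=
  ⟨by norm_num, (-51/500 : ℝ), (25168121/397620000 : ℝ), (-1664851/16920000 : ℝ), (-1733/11280 : ℝ),
    (5/564 : ℝ), (-13331/18800 : ℝ),
    by refine ⟨?_, ?_, ?_, ?_, ?_⟩ <;> norm_num [dRes, val, cN]⟩

theorem adm_o_4_49 : AdmN 4 49 (1) :=
  ⟨by norm_num, (-507/5000 : ℝ), (5213204363/82944000000 : ℝ), (-850554247/8640000000 : ℝ), (-88393/576000 : ℝ),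
    (5/576 : ℝ), (-27211/38400 : ℝ),
    by refine ⟨?_, ?_, ?_, ?_, ?_⟩ <;> norm_num [dRes, val, cN]⟩

theorem adm_o_5_6 : AdmN 5 6 (1) :=
  ⟨by norm_num, (-59/200 : ℝ), (1710117/10000000 : ℝ), (-855039/14000000 : ℝ), (-11779/70000 : ℝ),
    (3/35 : ℝ), (-14571/17500 : ℝ),
    by refine ⟨?_, ?_, ?_, ?_, ?_⟩ <;> norm_num [dRes, val, cN]⟩

theorem adm_o_5_7 : AdmN 5 7 (1) :=
  ⟨by norm_num, (-11/40 : ℝ), (89/560 : ℝ), (-873/14000 : ℝ), (-57/350 : ℝ),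
    (1/14 : ℝ), (-41/50 : ℝ),
    by refine ⟨?_, ?_, ?_, ?_, ?_⟩ <;> norm_num [dRes, val, cN]⟩

theorem adm_o_5_8 : AdmN 5 8 (1) :=
  ⟨by norm_num, (-51/200 : ℝ), (20368181/137200000 : ℝ), (-1261489/19600000 : ℝ), (-15461/98000 : ℝ),
    (3/49 : ℝ), (-19749/24500 : ℝ),
    by refine ⟨?_, ?_, ?_, ?_, ?_⟩ <;> norm_num [dRes, val, cN]⟩

theorem adm_o_5_9 : AdmN 5 9 (1) :=
  ⟨by norm_num, (-6/25 : ℝ), (783599/5600000 : ℝ), (-46003/700000 : ℝ), (-77/500 : ℝ),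
    (3/56 : ℝ), (-696/875 : ℝ),
    by refine ⟨?_, ?_, ?_, ?_, ?_⟩ <;> norm_num [dRes, val, cN]⟩

theorem adm_h_4_3 : AdmN 4 3 (1/2) :=
  ⟨by norm_num, (-67/200 : ℝ), (57583/320000 : ℝ), (-30107/480000 : ℝ), (-1637/7200 : ℝ),
    (1/12 : ℝ), (-433/800 : ℝ),
    by refine ⟨?_, ?_, ?_, ?_, ?_⟩ <;> norm_num [dRes, val, cN]⟩

theorem adm_h_4_4 : AdmN 4 4 (1/2) :=
  ⟨by norm_num, (-63/200 : ℝ), (52793/324000 : ℝ), (-65723/1080000 : ℝ), (-131/600 : ℝ),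
    (1/18 : ℝ), (-111/200 : ℝ),
    by refine ⟨?_, ?_, ?_, ?_, ?_⟩ <;> norm_num [dRes, val, cN]⟩

theorem adm_h_4_5 : AdmN 4 5 (1/2) :=
  ⟨by norm_num, (-61/200 : ℝ), (583189/3840000 : ℝ), (-57353/960000 : ℝ), (-1027/4800 : ℝ),
    (1/24 : ℝ), (-539/960 : ℝ),
    by refine ⟨?_, ?_, ?_, ?_, ?_⟩ <;> norm_num [dRes, val, cN]⟩

theorem adm_h_4_6 : AdmN 4 6 (1/2) :=
  ⟨by norm_num, (-59/200 : ℝ), (35957/250000 : ℝ), (-9031/150000 : ℝ), (-473/2250 : ℝ),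
    (1/30 : ℝ), (-283/500 : ℝ),
    by refine ⟨?_, ?_, ?_, ?_, ?_⟩ <;> norm_num [dRes, val, cN]⟩

theorem adm_h_4_7 : AdmN 4 7 (1/2) :=
  ⟨by norm_num, (-11/40 : ℝ), (5213/38400 : ℝ), (-3703/57600 : ℝ), (-881/4320 : ℝ),
    (1/36 : ℝ), (-823/1440 : ℝ),
    by refine ⟨?_, ?_, ?_, ?_, ?_⟩ <;> norm_num [dRes, val, cN]⟩

theorem adm_h_4_8 : AdmN 4 8 (1/2) :=
  ⟨by norm_num, (-51/200 : ℝ), (377059/2940000 : ℝ), (-57619/840000 : ℝ), (-277/1400 : ℝ),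
    (1/42 : ℝ), (-807/1400 : ℝ),
    by refine ⟨?_, ?_, ?_, ?_, ?_⟩ <;> norm_num [dRes, val, cN]⟩

theorem adm_h_4_9 : AdmN 4 9 (1/2) :=
  ⟨by norm_num, (-6/25 : ℝ), (1759/14400 : ℝ), (-6449/90000 : ℝ), (-29/150 : ℝ),
    (1/48 : ℝ), (-29/50 : ℝ),
    by refine ⟨?_, ?_, ?_, ?_, ?_⟩ <;> norm_num [dRes, val, cN]⟩

theorem adm_h_4_10 : AdmN 4 10 (1/2) :=
  ⟨by norm_num, (-9/40 : ℝ), (33899/291600 : ℝ), (-2423/32400 : ℝ), (-17/90 : ℝ),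
    (1/54 : ℝ), (-7/12 : ℝ),
    by refine ⟨?_, ?_, ?_, ?_, ?_⟩ <;> norm_num [dRes, val, cN]⟩

theorem adm_h_4_11 : AdmN 4 11 (1/2) :=
  ⟨by norm_num, (-43/200 : ℝ), (2684077/24000000 : ℝ), (-184067/2400000 : ℝ), (-2231/12000 : ℝ),
    (1/60 : ℝ), (-7027/12000 : ℝ),
    by refine ⟨?_, ?_, ?_, ?_, ?_⟩ <;> norm_num [dRes, val, cN]⟩

theorem adm_h_4_12 : AdmN 4 12 (1/2) :=
  ⟨by norm_num, (-41/200 : ℝ), (260291/2420000 : ℝ), (-103819/1320000 : ℝ), (-3623/19800 : ℝ),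
    (1/66 : ℝ), (-1293/2200 : ℝ),
    by refine ⟨?_, ?_, ?_, ?_, ?_⟩ <;> norm_num [dRes, val, cN]⟩

theorem adm_h_4_13 : AdmN 4 13 (1/2) :=
  ⟨by norm_num, (-39/200 : ℝ), (10714903/103680000 : ℝ), (-696619/8640000 : ℝ), (-2593/14400 : ℝ),
    (1/72 : ℝ), (-2831/4800 : ℝ),
    by refine ⟨?_, ?_, ?_, ?_, ?_⟩ <;> norm_num [dRes, val, cN]⟩

theorem adm_h_4_14 : AdmN 4 14 (1/2) :=
  ⟨by norm_num, (-19/100 : ℝ), (51101/507000 : ℝ), (-63533/780000 : ℝ), (-1393/7800 : ℝ),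
    (1/78 : ℝ), (-4609/7800 : ℝ),
    by refine ⟨?_, ?_, ?_, ?_, ?_⟩ <;> norm_num [dRes, val, cN]⟩

theorem adm_h_4_15 : AdmN 4 15 (1/2) :=
  ⟨by norm_num, (-37/200 : ℝ), (4625581/47040000 : ℝ), (-92189/1120000 : ℝ), (-8927/50400 : ℝ),
    (1/84 : ℝ), (-663/1120 : ℝ),
    by refine ⟨?_, ?_, ?_, ?_, ?_⟩ <;> norm_num [dRes, val, cN]⟩

theorem adm_h_4_16 : AdmN 4 16 (1/2) :=
  ⟨by norm_num, (-7/40 : ℝ), (16961/180000 : ℝ), (-6071/72000 : ℝ), (-941/5400 : ℝ),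
    (1/90 : ℝ), (-1069/1800 : ℝ),
    by refine ⟨?_, ?_, ?_, ?_, ?_⟩ <;> norm_num [dRes, val, cN]⟩

theorem adm_h_4_17 : AdmN 4 17 (1/2) :=
  ⟨by norm_num, (-17/100 : ℝ), (1410853/15360000 : ℝ), (-81797/960000 : ℝ), (-553/3200 : ℝ),
    (1/96 : ℝ), (-5711/9600 : ℝ),
    by refine ⟨?_, ?_, ?_, ?_, ?_⟩ <;> norm_num [dRes, val, cN]⟩

theorem adm_h_4_18 : AdmN 4 18 (1/2) :=
  ⟨by norm_num, (-33/200 : ℝ), (2328199/26010000 : ℝ), (-131737/1530000 : ℝ), (-437/2550 : ℝ),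
    (1/102 : ℝ), (-1013/1700 : ℝ),
    by refine ⟨?_, ?_, ?_, ?_, ?_⟩ <;> norm_num [dRes, val, cN]⟩

theorem adm_h_4_19 : AdmN 4 19 (1/2) :=
  ⟨by norm_num, (-4/25 : ℝ), (5297/60750 : ℝ), (-5873/67500 : ℝ), (-2753/16200 : ℝ),
    (1/108 : ℝ), (-3223/5400 : ℝ),
    by refine ⟨?_, ?_, ?_, ?_, ?_⟩ <;> norm_num [dRes, val, cN]⟩

theorem adm_h_4_20 : AdmN 4 20 (1/2) :=
  ⟨by norm_num, (-4/25 : ℝ), (58727/676875 : ℝ), (-3094/35625 : ℝ), (-1937/11400 : ℝ),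
    (1/114 : ℝ), (-1361/2280 : ℝ),
    by refine ⟨?_, ?_, ?_, ?_, ?_⟩ <;> norm_num [dRes, val, cN]⟩

theorem adm_h_4_21 : AdmN 4 21 (1/2) :=
  ⟨by norm_num, (-31/200 : ℝ), (2704031/32000000 : ℝ), (-421313/4800000 : ℝ), (-12131/72000 : ℝ),
    (1/120 : ℝ), (-4783/8000 : ℝ),
    by refine ⟨?_, ?_, ?_, ?_, ?_⟩ <;> norm_num [dRes, val, cN]⟩

theorem adm_h_4_22 : AdmN 4 22 (1/2) :=
  ⟨by norm_num, (-3/20 : ℝ), (65281/793800 : ℝ), (-13411/151200 : ℝ), (-421/2520 : ℝ),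
    (1/126 : ℝ), (-503/840 : ℝ),
    by refine ⟨?_, ?_, ?_, ?_, ?_⟩ <;> norm_num [dRes, val, cN]⟩

theorem adm_h_4_23 : AdmN 4 23 (1/2) :=
  ⟨by norm_num, (-29/200 : ℝ), (9289261/116160000 : ℝ), (-473183/5280000 : ℝ), (-4373/26400 : ℝ),
    (1/132 : ℝ), (-15833/26400 : ℝ),
    by refine ⟨?_, ?_, ?_, ?_, ?_⟩ <;> norm_num [dRes, val, cN]⟩

theorem adm_h_4_24 : AdmN 4 24 (1/2) :=
  ⟨by norm_num, (-29/200 : ℝ), (505813/6348000 : ℝ), (-247049/2760000 : ℝ), (-6857/41400 : ℝ),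
    (1/138 : ℝ), (-2759/4600 : ℝ),
    by refine ⟨?_, ?_, ?_, ?_, ?_⟩ <;> norm_num [dRes, val, cN]⟩

theorem adm_h_4_25 : AdmN 4 25 (1/2) :=
  ⟨by norm_num, (-7/50 : ℝ), (74329/960000 : ℝ), (-32557/360000 : ℝ), (-3547/21600 : ℝ),
    (1/144 : ℝ), (-173/288 : ℝ),
    by refine ⟨?_, ?_, ?_, ?_, ?_⟩ <;> norm_num [dRes, val, cN]⟩

theorem adm_h_4_26 : AdmN 4 26 (1/2) :=
  ⟨by norm_num, (-27/200 : ℝ), (1409129/18750000 : ℝ), (-137033/1500000 : ℝ), (-407/2500 : ℝ),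
    (1/150 : ℝ), (-376/625 : ℝ),
    by refine ⟨?_, ?_, ?_, ?_, ?_⟩ <;> norm_num [dRes, val, cN]⟩

theorem adm_h_4_27 : AdmN 4 27 (1/2) :=
  ⟨by norm_num, (-27/200 : ℝ), (36470279/486720000 : ℝ), (-1708601/18720000 : ℝ), (-1693/10400 : ℝ),
    (1/156 : ℝ), (-6257/10400 : ℝ),
    by refine ⟨?_, ?_, ?_, ?_, ?_⟩ <;> norm_num [dRes, val, cN]⟩

theorem adm_h_4_28 : AdmN 4 28 (1/2) :=
  ⟨by norm_num, (-13/100 : ℝ), (6539/90000 : ℝ), (-149347/1620000 : ℝ), (-7843/48600 : ℝ),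
    (1/162 : ℝ), (-9761/16200 : ℝ),
    by refine ⟨?_, ?_, ?_, ?_, ?_⟩ <;> norm_num [dRes, val, cN]⟩

theorem adm_h_4_29 : AdmN 4 29 (1/2) :=
  ⟨by norm_num, (-13/100 : ℝ), (681749/9408000 : ℝ), (-154757/1680000 : ℝ), (-2711/16800 : ℝ),
    (1/168 : ℝ), (-10123/16800 : ℝ),
    by refine ⟨?_, ?_, ?_, ?_, ?_⟩ <;> norm_num [dRes, val, cN]⟩

theorem adm_h_4_30 : AdmN 4 30 (1/2) :=
  ⟨by norm_num, (-13/100 : ℝ), (911899/12615000 : ℝ), (-1841/20000 : ℝ), (-8423/52200 : ℝ),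
    (1/174 : ℝ), (-699/1160 : ℝ),
    by refine ⟨?_, ?_, ?_, ?_, ?_⟩ <;> norm_num [dRes, val, cN]⟩

theorem adm_h_4_31 : AdmN 4 31 (1/2) :=
  ⟨by norm_num, (-1/8 : ℝ), (24197/345600 : ℝ), (-119/1280 : ℝ), (-691/4320 : ℝ),
    (1/180 : ℝ), (-869/1440 : ℝ),
    by refine ⟨?_, ?_, ?_, ?_, ?_⟩ <;> norm_num [dRes, val, cN]⟩

theorem adm_h_4_32 : AdmN 4 32 (1/2) :=
  ⟨by norm_num, (-1/8 : ℝ), (6445/92256 : ℝ), (-553/5952 : ℝ), (-119/744 : ℝ),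
    (1/186 : ℝ), (-449/744 : ℝ),
    by refine ⟨?_, ?_, ?_, ?_, ?_⟩ <;> norm_num [dRes, val, cN]⟩

theorem adm_h_4_33 : AdmN 4 33 (1/2) :=
  ⟨by norm_num, (-3/25 : ℝ), (778397/11520000 : ℝ), (-2111/22500 : ℝ), (-761/4800 : ℝ),
    (1/192 : ℝ), (-967/1600 : ℝ),
    by refine ⟨?_, ?_, ?_, ?_, ?_⟩ <;> norm_num [dRes, val, cN]⟩

theorem adm_h_4_34 : AdmN 4 34 (1/2) :=
  ⟨by norm_num, (-3/25 : ℝ), (16523/245025 : ℝ), (-12659/135000 : ℝ), (-3139/19800 : ℝ),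
    (1/198 : ℝ), (-3989/6600 : ℝ),
    by refine ⟨?_, ?_, ?_, ?_, ?_⟩ <;> norm_num [dRes, val, cN]⟩

theorem adm_h_4_35 : AdmN 4 35 (1/2) :=
  ⟨by norm_num, (-3/25 : ℝ), (583547/8670000 : ℝ), (-23899/255000 : ℝ), (-539/3400 : ℝ),
    (1/204 : ℝ), (-411/680 : ℝ),
    by refine ⟨?_, ?_, ?_, ?_, ?_⟩ <;> norm_num [dRes, val, cN]⟩

theorem adm_h_4_36 : AdmN 4 36 (1/2) :=
  ⟨by norm_num, (-23/200 : ℝ), (1592541/24500000 : ℝ), (-397441/4200000 : ℝ), (-9899/63000 : ℝ),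
    (1/210 : ℝ), (-4237/7000 : ℝ),
    by refine ⟨?_, ?_, ?_, ?_, ?_⟩ <;> norm_num [dRes, val, cN]⟩

theorem adm_h_4_37 : AdmN 4 37 (1/2) :=
  ⟨by norm_num, (-23/200 : ℝ), (20183053/311040000 : ℝ), (-817217/8640000 : ℝ), (-20363/129600 : ℝ),
    (1/216 : ℝ), (-26149/43200 : ℝ),
    by refine ⟨?_, ?_, ?_, ?_, ?_⟩ <;> norm_num [dRes, val, cN]⟩

theorem adm_h_4_38 : AdmN 4 38 (1/2) :=
  ⟨by norm_num, (-23/200 : ℝ), (2660603/41070000 : ℝ), (-6559/69375 : ℝ), (-436/2775 : ℝ),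
    (1/222 : ℝ), (-6719/11100 : ℝ),
    by refine ⟨?_, ?_, ?_, ?_, ?_⟩ <;> norm_num [dRes, val, cN]⟩

theorem adm_h_4_39 : AdmN 4 39 (1/2) :=
  ⟨by norm_num, (-11/100 : ℝ), (18987/304000 : ℝ), (-217613/2280000 : ℝ), (-10651/68400 : ℝ),
    (1/228 : ℝ), (-4607/7600 : ℝ),
    by refine ⟨?_, ?_, ?_, ?_, ?_⟩ <;> norm_num [dRes, val, cN]⟩

theorem adm_h_4_40 : AdmN 4 40 (1/2) :=
  ⟨by norm_num, (-11/100 : ℝ), (2845577/45630000 : ℝ), (-223253/2340000 : ℝ), (-10931/70200 : ℝ),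
    (1/234 : ℝ), (-2837/4680 : ℝ),
    by refine ⟨?_, ?_, ?_, ?_, ?_⟩ <;> norm_num [dRes, val, cN]⟩

theorem adm_h_4_41 : AdmN 4 41 (1/2) :=
  ⟨by norm_num, (-11/100 : ℝ), (5978053/96000000 : ℝ), (-228893/2400000 : ℝ), (-3737/24000 : ℝ),
    (1/240 : ℝ), (-14549/24000 : ℝ),
    by refine ⟨?_, ?_, ?_, ?_, ?_⟩ <;> norm_num [dRes, val, cN]⟩

theorem adm_h_4_42 : AdmN 4 42 (1/2) :=
  ⟨by norm_num, (-21/200 : ℝ), (9065587/151290000 : ℝ), (-355213/3690000 : ℝ), (-949/6150 : ℝ),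
    (1/246 : ℝ), (-2489/4100 : ℝ),
    by refine ⟨?_, ?_, ?_, ?_, ?_⟩ <;> norm_num [dRes, val, cN]⟩

theorem adm_h_4_43 : AdmN 4 43 (1/2) :=
  ⟨by norm_num, (-21/200 : ℝ), (76002223/1270080000 : ℝ), (-2910049/30240000 : ℝ), (-1111/7200 : ℝ),
    (1/252 : ℝ), (-1457/2400 : ℝ),
    by refine ⟨?_, ?_, ?_, ?_, ?_⟩ <;> norm_num [dRes, val, cN]⟩

theorem adm_h_4_44 : AdmN 4 44 (1/2) :=
  ⟨by norm_num, (-21/200 : ℝ), (1326017/22188000 : ℝ), (-496399/5160000 : ℝ), (-1327/8600 : ℝ),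
    (1/258 : ℝ), (-5221/8600 : ℝ),
    by refine ⟨?_, ?_, ?_, ?_, ?_⟩ <;> norm_num [dRes, val, cN]⟩

theorem adm_h_4_45 : AdmN 4 45 (1/2) :=
  ⟨by norm_num, (-21/200 : ℝ), (83201087/1393920000 : ℝ), (-3046739/31680000 : ℝ), (-8147/52800 : ℝ),
    (1/264 : ℝ), (-2137/3520 : ℝ),
    by refine ⟨?_, ?_, ?_, ?_, ?_⟩ <;> norm_num [dRes, val, cN]⟩

theorem adm_h_4_46 : AdmN 4 46 (1/2) :=
  ⟨by norm_num, (-1/10 : ℝ), (34819/607500 : ℝ), (-1747/18000 : ℝ), (-2477/16200 : ℝ),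
    (1/270 : ℝ), (-3283/5400 : ℝ),
    by refine ⟨?_, ?_, ?_, ?_, ?_⟩ <;> norm_num [dRes, val, cN]⟩

theorem adm_h_4_47 : AdmN 4 47 (1/2) :=
  ⟨by norm_num, (-1/10 : ℝ), (36341/634800 : ℝ), (-1339/13800 : ℝ), (-211/1380 : ℝ),
    (1/276 : ℝ), (-839/1380 : ℝ),
    by refine ⟨?_, ?_, ?_, ?_, ?_⟩ <;> norm_num [dRes, val, cN]⟩

theorem adm_h_4_48 : AdmN 4 48 (1/2) :=
  ⟨by norm_num, (-1/10 : ℝ), (75791/1325400 : ℝ), (-5471/56400 : ℝ), (-2587/16920 : ℝ),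
    (1/282 : ℝ), (-1143/1880 : ℝ),
    by refine ⟨?_, ?_, ?_, ?_, ?_⟩ <;> norm_num [dRes, val, cN]⟩

theorem adm_h_4_49 : AdmN 4 49 (1/2) :=
  ⟨by norm_num, (-1/10 : ℝ), (15793/276480 : ℝ), (-931/9600 : ℝ), (-1321/8640 : ℝ),
    (1/288 : ℝ), (-1751/2880 : ℝ),
    by refine ⟨?_, ?_, ?_, ?_, ?_⟩ <;> norm_num [dRes, val, cN]⟩

theorem adm_h_4_50 : AdmN 4 50 (1/2) :=
  ⟨by norm_num, (-1/10 : ℝ), (20551/360150 : ℝ), (-5701/58800 : ℝ), (-899/5880 : ℝ),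
    (1/294 : ℝ), (-715/1176 : ℝ),
    by refine ⟨?_, ?_, ?_, ?_, ?_⟩ <;> norm_num [dRes, val, cN]⟩

theorem adm_h_4_51 : AdmN 4 51 (1/2) :=
  ⟨by norm_num, (-99/1000 : ℝ), (2544319799/45000000000 : ℝ), (-87402449/900000000 : ℝ), (-15261/100000 : ℝ),
    (1/300 : ℝ), (-60817/100000 : ℝ),
    by refine ⟨?_, ?_, ?_, ?_, ?_⟩ <;> norm_num [dRes, val, cN]⟩

theorem adm_h_4_52 : AdmN 4 52 (1/2) :=
  ⟨by norm_num, (-49/500 : ℝ), (6428213/114750000 : ℝ), (-2480441/25500000 : ℝ), (-69919/459000 : ℝ),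
    (1/306 : ℝ), (-93077/153000 : ℝ),
    by refine ⟨?_, ?_, ?_, ?_, ?_⟩ <;> norm_num [dRes, val, cN]⟩

theorem adm_h_5_3 : AdmN 5 3 (1/2) :=
  ⟨by norm_num, (-2/5 : ℝ), (1837/11200 : ℝ), (-193/5600 : ℝ), (-27/140 : ℝ),
    (5/56 : ℝ), (-18/35 : ℝ),
    by refine ⟨?_, ?_, ?_, ?_, ?_⟩ <;> norm_num [dRes, val, cN]⟩

theorem adm_h_5_4 : AdmN 5 4 (1/2) :=
  ⟨by norm_num, (-37/100 : ℝ), (54731/360000 : ℝ), (-30409/840000 : ℝ), (-1543/8400 : ℝ),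
    (5/84 : ℝ), (-278/525 : ℝ),
    by refine ⟨?_, ?_, ?_, ?_, ?_⟩ <;> norm_num [dRes, val, cN]⟩

theorem adm_h_5_5 : AdmN 5 5 (1/2) :=
  ⟨by norm_num, (-33/100 : ℝ), (126911/896000 : ℝ), (-9663/224000 : ℝ), (-389/2240 : ℝ),
    (5/112 : ℝ), (-303/560 : ℝ),
    by refine ⟨?_, ?_, ?_, ?_, ?_⟩ <;> norm_num [dRes, val, cN]⟩

theorem adm_h_5_6 : AdmN 5 6 (1/2) :=
  ⟨by norm_num, (-59/200 : ℝ), (528667/4000000 : ℝ), (-276889/5600000 : ℝ), (-4629/28000 : ℝ),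
    (1/28 : ℝ), (-1923/3500 : ℝ),
    by refine ⟨?_, ?_, ?_, ?_, ?_⟩ <;> norm_num [dRes, val, cN]⟩

theorem adm_h_5_7 : AdmN 5 7 (1/2) :=
  ⟨by norm_num, (-11/40 : ℝ), (40351/322560 : ℝ), (-14131/268800 : ℝ), (-1079/6720 : ℝ),
    (5/168 : ℝ), (-133/240 : ℝ),
    by refine ⟨?_, ?_, ?_, ?_, ?_⟩ <;> norm_num [dRes, val, cN]⟩

theorem adm_h_5_8 : AdmN 5 8 (1/2) :=
  ⟨by norm_num, (-51/200 : ℝ), (6502873/54880000 : ℝ), (-438237/7840000 : ℝ), (-6113/39200 : ℝ),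
    (5/196 : ℝ), (-684/1225 : ℝ),
    by refine ⟨?_, ?_, ?_, ?_, ?_⟩ <;> norm_num [dRes, val, cN]⟩

theorem adm_h_5_9 : AdmN 5 9 (1/2) :=
  ⟨by norm_num, (-6/25 : ℝ), (506657/4480000 : ℝ), (-32629/560000 : ℝ), (-61/400 : ℝ),
    (5/224 : ℝ), (-393/700 : ℝ),
    by refine ⟨?_, ?_, ?_, ?_, ?_⟩ <;> norm_num [dRes, val, cN]⟩

theorem adm_h_5_10 : AdmN 5 10 (1/2) :=
  ⟨by norm_num, (-9/40 : ℝ), (130447/1209600 : ℝ), (-24473/403200 : ℝ), (-167/1120 : ℝ),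
    (5/252 : ℝ), (-79/140 : ℝ),
    by refine ⟨?_, ?_, ?_, ?_, ?_⟩ <;> norm_num [dRes, val, cN]⟩

theorem adm_h_5_11 : AdmN 5 11 (1/2) :=
  ⟨by norm_num, (-43/200 : ℝ), (11636851/112000000 : ℝ), (-696411/11200000 : ℝ), (-8223/56000 : ℝ),
    (1/56 : ℝ), (-7927/14000 : ℝ),
    by refine ⟨?_, ?_, ?_, ?_, ?_⟩ <;> norm_num [dRes, val, cN]⟩

theorem adm_h_5_12 : AdmN 5 12 (1/2) :=
  ⟨by norm_num, (-41/200 : ℝ), (2712197/27104000 : ℝ), (-784813/12320000 : ℝ), (-8907/61600 : ℝ),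
    (5/308 : ℝ), (-2187/3850 : ℝ),
    by refine ⟨?_, ?_, ?_, ?_, ?_⟩ <;> norm_num [dRes, val, cN]⟩

theorem adm_h_5_13 : AdmN 5 13 (1/2) :=
  ⟨by norm_num, (-39/200 : ℝ), (739403/7680000 : ℝ), (-876887/13440000 : ℝ), (-3189/22400 : ℝ),
    (5/336 : ℝ), (-3191/5600 : ℝ),
    by refine ⟨?_, ?_, ?_, ?_, ?_⟩ <;> norm_num [dRes, val, cN]⟩

theorem adm_h_5_14 : AdmN 5 14 (1/2) :=
  ⟨by norm_num, (-19/100 : ℝ), (4447113/47320000 : ℝ), (-239821/3640000 : ℝ), (-5141/36400 : ℝ),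
    (5/364 : ℝ), (-371/650 : ℝ),
    by refine ⟨?_, ?_, ?_, ?_, ?_⟩ <;> norm_num [dRes, val, cN]⟩

theorem adm_h_6_4 : AdmN 6 4 (1/2) :=
  ⟨by norm_num, (-37/100 : ℝ), (15941/112500 : ℝ), (-18941/600000 : ℝ), (-907/6000 : ℝ),
    (1/16 : ℝ), (-313/600 : ℝ),
    by refine ⟨?_, ?_, ?_, ?_, ?_⟩ <;> norm_num [dRes, val, cN]⟩

theorem adm_h_6_5 : AdmN 6 5 (1/2) :=
  ⟨by norm_num, (-33/100 : ℝ), (848799/6400000 : ℝ), (-59419/1600000 : ℝ), (-6871/48000 : ℝ),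
    (3/64 : ℝ), (-1021/1920 : ℝ),
    by refine ⟨?_, ?_, ?_, ?_, ?_⟩ <;> norm_num [dRes, val, cN]⟩

theorem adm_h_6_6 : AdmN 6 6 (1/2) :=
  ⟨by norm_num, (-59/200 : ℝ), (1863169/15000000 : ℝ), (-253513/6000000 : ℝ), (-4093/30000 : ℝ),
    (3/80 : ℝ), (-6469/12000 : ℝ),
    by refine ⟨?_, ?_, ?_, ?_, ?_⟩ <;> norm_num [dRes, val, cN]⟩

theorem adm_h_6_7 : AdmN 6 7 (1/2) :=
  ⟨by norm_num, (-11/40 : ℝ), (271507/2304000 : ℝ), (-17197/384000 : ℝ), (-1273/9600 : ℝ),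
    (1/32 : ℝ), (-1043/1920 : ℝ),
    by refine ⟨?_, ?_, ?_, ?_, ?_⟩ <;> norm_num [dRes, val, cN]⟩

theorem adm_b_4_3 : AdmN 4 3 (((3 : ℕ) + 1) / 6) :=
  ⟨by norm_num, (-71/200 : ℝ), (389933/1920000 : ℝ), (-65419/960000 : ℝ), (-3433/14400 : ℝ),
    (1/8 : ℝ), (-3071/4800 : ℝ),
    by refine ⟨?_, ?_, ?_, ?_, ?_⟩ <;> norm_num [dRes, val, cN]⟩

theorem adm_b_4_4 : AdmN 4 4 (((4 : ℕ) + 1) / 6) :=
  ⟨by norm_num, (-7/20 : ℝ), (109/540 : ℝ), (-79/1200 : ℝ), (-127/540 : ℝ),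
    (1/9 : ℝ), (-137/180 : ℝ),
    by refine ⟨?_, ?_, ?_, ?_, ?_⟩ <;> norm_num [dRes, val, cN]⟩

theorem adm_b_4_5 : AdmN 4 5 (((5 : ℕ) + 1) / 6) :=
  ⟨by norm_num, (-33/100 : ℝ), (76609/384000 : ℝ), (-6773/96000 : ℝ), (-73/320 : ℝ),
    (5/48 : ℝ), (-277/320 : ℝ),
    by refine ⟨?_, ?_, ?_, ?_, ?_⟩ <;> norm_num [dRes, val, cN]⟩

theorem adm_b_4_6 : AdmN 4 6 (((6 : ℕ) + 1) / 6) :=
  ⟨by norm_num, (-59/200 : ℝ), (146563/750000 : ℝ), (-16099/200000 : ℝ), (-1951/9000 : ℝ),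
    (1/10 : ℝ), (-2819/3000 : ℝ),
    by refine ⟨?_, ?_, ?_, ?_, ?_⟩ <;> norm_num [dRes, val, cN]⟩

theorem adm_b_4_7 : AdmN 4 7 (((7 : ℕ) + 1) / 6) :=
  ⟨by norm_num, (-11/40 : ℝ), (14741/76800 : ℝ), (-9871/115200 : ℝ), (-1817/8640 : ℝ),
    (7/72 : ℝ), (-2911/2880 : ℝ),
    by refine ⟨?_, ?_, ?_, ?_, ?_⟩ <;> norm_num [dRes, val, cN]⟩

theorem adm_b_4_8 : AdmN 4 8 (((8 : ℕ) + 1) / 6) :=
  ⟨by norm_num, (-51/200 : ℝ), (1105507/5880000 : ℝ), (-50879/560000 : ℝ), (-571/2800 : ℝ),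
    (2/21 : ℝ), (-2991/2800 : ℝ),
    by refine ⟨?_, ?_, ?_, ?_, ?_⟩ <;> norm_num [dRes, val, cN]⟩

theorem adm_b_4_9 : AdmN 4 9 (((9 : ℕ) + 1) / 6) :=
  ⟨by norm_num, (-6/25 : ℝ), (5317/28800 : ℝ), (-17021/180000 : ℝ), (-239/1200 : ℝ),
    (3/32 : ℝ), (-449/400 : ℝ),
    by refine ⟨?_, ?_, ?_, ?_, ?_⟩ <;> norm_num [dRes, val, cN]⟩

theorem adm_b_4_10 : AdmN 4 10 (((10 : ℕ) + 1) / 6) :=
  ⟨by norm_num, (-9/40 : ℝ), (10553/58320 : ℝ), (-1273/12960 : ℝ), (-7/36 : ℝ),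
    (5/54 : ℝ), (-7/6 : ℝ),
    by refine ⟨?_, ?_, ?_, ?_, ?_⟩ <;> norm_num [dRes, val, cN]⟩

theorem adm_b_4_11 : AdmN 4 11 (((11 : ℕ) + 1) / 6) :=
  ⟨by norm_num, (-43/200 : ℝ), (8556197/48000000 : ℝ), (-482587/4800000 : ℝ), (-4591/24000 : ℝ),
    (11/120 : ℝ), (-29147/24000 : ℝ),
    by refine ⟨?_, ?_, ?_, ?_, ?_⟩ <;> norm_num [dRes, val, cN]⟩

theorem adm_b_4_12 : AdmN 4 12 (((12 : ℕ) + 1) / 6) :=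
  ⟨by norm_num, (-41/200 : ℝ), (2547451/14520000 : ℝ), (-90501/880000 : ℝ), (-7451/39600 : ℝ),
    (1/11 : ℝ), (-16573/13200 : ℝ),
    by refine ⟨?_, ?_, ?_, ?_, ?_⟩ <;> norm_num [dRes, val, cN]⟩

theorem adm_b_4_13 : AdmN 4 13 (((13 : ℕ) + 1) / 6) :=
  ⟨by norm_num, (-39/200 : ℝ), (35770759/207360000 : ℝ), (-1816507/17280000 : ℝ), (-5329/28800 : ℝ),
    (13/144 : ℝ), (-12383/9600 : ℝ),
    by refine ⟨?_, ?_, ?_, ?_, ?_⟩ <;> norm_num [dRes, val, cN]⟩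

theorem adm_b_4_14 : AdmN 4 14 (((14 : ℕ) + 1) / 6) :=
  ⟨by norm_num, (-19/100 : ℝ), (86657/507000 : ℝ), (-82811/780000 : ℝ), (-477/2600 : ℝ),
    (7/78 : ℝ), (-10423/7800 : ℝ),
    by refine ⟨?_, ?_, ?_, ?_, ?_⟩ <;> norm_num [dRes, val, cN]⟩

theorem adm_b_4_15 : AdmN 4 15 (((15 : ℕ) + 1) / 6) :=
  ⟨by norm_num, (-37/200 : ℝ), (3185881/18816000 : ℝ), (-144107/1344000 : ℝ), (-3667/20160 : ℝ),
    (5/56 : ℝ), (-9269/6720 : ℝ),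
    by refine ⟨?_, ?_, ?_, ?_, ?_⟩ <;> norm_num [dRes, val, cN]⟩

theorem adm_b_4_16 : AdmN 4 16 (((16 : ℕ) + 1) / 6) :=
  ⟨by norm_num, (-179/1000 : ℝ), (112980827/675000000 : ℝ), (-1085161/10000000 : ℝ), (-48607/270000 : ℝ),
    (4/45 : ℝ), (-127313/90000 : ℝ),
    by refine ⟨?_, ?_, ?_, ?_, ?_⟩ <;> norm_num [dRes, val, cN]⟩

theorem adm_b_5_3 : AdmN 5 3 (((3 : ℕ) + 1) / 7) :=
  ⟨by norm_num, (-41/100 : ℝ), (481643/2800000 : ℝ), (-49627/1400000 : ℝ), (-2753/14000 : ℝ),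
    (3/28 : ℝ), (-1977/3500 : ℝ),
    by refine ⟨?_, ?_, ?_, ?_, ?_⟩ <;> norm_num [dRes, val, cN]⟩

theorem adm_b_5_4 : AdmN 5 4 (((4 : ℕ) + 1) / 7) :=
  ⟨by norm_num, (-37/100 : ℝ), (157121/900000 : ℝ), (-92719/2100000 : ℝ), (-559/3000 : ℝ),
    (2/21 : ℝ), (-3557/5250 : ℝ),
    by refine ⟨?_, ?_, ?_, ?_, ?_⟩ <;> norm_num [dRes, val, cN]⟩

theorem adm_b_5_5 : AdmN 5 5 (((5 : ℕ) + 1) / 7) :=
  ⟨by norm_num, (-33/100 : ℝ), (389271/2240000 : ℝ), (-29863/560000 : ℝ), (-989/5600 : ℝ),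
    (5/56 : ℝ), (-153/200 : ℝ),
    by refine ⟨?_, ?_, ?_, ?_, ?_⟩ <;> norm_num [dRes, val, cN]⟩

theorem adm_b_5_6 : AdmN 5 6 (((6 : ℕ) + 1) / 7) :=
  ⟨by norm_num, (-59/200 : ℝ), (1710117/10000000 : ℝ), (-855039/14000000 : ℝ), (-11779/70000 : ℝ),
    (3/35 : ℝ), (-14571/17500 : ℝ),
    by refine ⟨?_, ?_, ?_, ?_, ?_⟩ <;> norm_num [dRes, val, cN]⟩

end CaccioN

end Vale.Agent.Lib.P252
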